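import Vale.Agent.P069.Space

/-!
Reflexivity of the space.
-/

namespace Vale.Agent.P069

open Filter
open scoped Topology

/-- The coordinate maps. -/
noncomputable def proj (n : ℕ) : X →L[ℝ] Z n :=
  LinearMap.mkContinuous
    { toFun := fun x => x n
      map_add' := fun _ _ => rfl
      map_smul' := fun _ _ => rfl } 1
    (fun x => by rw [one_mul]; exact lp.norm_apply_le_norm two_ne_zero x n)

lemma proj_apply (n : ℕ) (x : X) : proj n x = x n := rfl

/-- The inclusions. -/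
noncomputable def incl (n : ℕ) : Z n →L[ℝ] X :=
  LinearMap.mkContinuous
    { toFun := fun z => lp.single 2 n z
      map_add' := fun a b => lp.single_add 2 n a b
      map_smul' := fun c a => lp.single_smul 2 n c a } 1
    (fun z => by rw [one_mul]; exact le_of_eq (lp.norm_single (E := fun n => Z n) (by norm_num) n z))

lemma incl_apply (n : ℕ) (z : Z n) : incl n z = lp.single 2 n z := rfl

lemma norm_sum_incl_sq (I : Finset ℕ) (w : ∀ n, Z n) :
    ‖∑ n ∈ I, incl n (w n)‖ ^ 2 = ∑ n ∈ I, ‖w n‖ ^ 2 := by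
  have := lp.norm_sum_single (E := fun n => Z n) (p := 2) (by norm_num) w I
  simpa [incl_apply] using this

lemma sum_norm_sq_le (x : X) (I : Finset ℕ) : ∑ n ∈ I, ‖x n‖ ^ 2 ≤ ‖x‖ ^ 2 := by
  simpa using lp.sum_rpow_le_norm_rpow (p := 2) (by norm_num) x I

lemma hasSum_incl (x : X) : HasSum (fun n => incl n (x n)) x :=
  lp.hasSum_single (E := fun n => Z n) (by norm_num) x

lemma le_of_sq_le_mul_sqrt {S C : ℝ} (hC : 0 ≤ C) (hS : 0 ≤ S) (h : S ≤ C * Real.sqrt S) : S ≤ C ^ 2 := by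
  have := Real.sq_sqrt hS
  have := Real.sqrt_nonneg S
  nlinarith [sq_nonneg (C - Real.sqrt S)]

lemma sum_dual_sq_le (φ : StrongDual ℝ X) (I : Finset ℕ) :
    ∑ n ∈ I, ‖φ.comp (incl n)‖ ^ 2 ≤ ‖φ‖ ^ 2 := by
  set a : ℕ → ℝ := fun n => ‖φ.comp (incl n)‖
  refine le_of_sq_le_mul_sqrt (norm_nonneg _) (Finset.sum_nonneg fun n _ => sq_nonneg _) ?_
  refine le_of_forall_pos_le_add fun ε hε => ?_
  set η := ε / (∑ n ∈ I, a n + 1)
  have hden : 0 < ∑ n ∈ I, a n + 1 := by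
    have : 0 ≤ ∑ n ∈ I, a n := Finset.sum_nonneg fun n _ => norm_nonneg _
    linarith
  have hη : 0 < η := div_pos hε hden
  have hz : ∀ n, ∃ z : Z n, ‖z‖ ≤ 1 ∧ a n - η ≤ φ (incl n z) := by
    intro n
    by_contra hc
    push Not at hc
    have hneg := hc 0 (by simp)
    simp at hneg
    have h2 : ∀ z : Z n, ‖z‖ ≤ 1 → ‖(φ.comp (incl n)) z‖ ≤ a n - η := fun z hz => by
      rw [Real.norm_eq_abs, abs_le]
      refine ⟨?_, (hc z hz).le⟩
      have := hc (-z) (by rwa [norm_neg])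
      simp only [map_neg] at this
      simp only [ContinuousLinearMap.comp_apply]
      linarith
    have : a n ≤ a n - η := ContinuousLinearMap.opNorm_le_of_unit_norm (by linarith) fun z hz => h2 z hz.le
    linarith
  choose z hz1 hz2 using hz
  have h1 : ∑ n ∈ I, a n * (a n - η) ≤ φ (∑ n ∈ I, incl n (a n • z n)) := by
    rw [map_sum]
    refine Finset.sum_le_sum fun n _ => ?_
    rw [map_smul, map_smul, smul_eq_mul]
    exact mul_le_mul_of_nonneg_left (hz2 n) (norm_nonneg _)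
  have h2 : ‖∑ n ∈ I, incl n (a n • z n)‖ ≤ Real.sqrt (∑ n ∈ I, a n ^ 2) := by
    refine Real.le_sqrt_of_sq_le ?_
    rw [norm_sum_incl_sq]
    refine Finset.sum_le_sum fun n _ => ?_
    rw [norm_smul, Real.norm_of_nonneg (norm_nonneg _), mul_pow]
    have : ‖z n‖ ^ 2 ≤ 1 := by nlinarith [hz1 n, norm_nonneg (z n)]
    nlinarith [sq_nonneg (a n)]
  have h3 : φ (∑ n ∈ I, incl n (a n • z n)) ≤ ‖φ‖ * Real.sqrt (∑ n ∈ I, a n ^ 2) :=
    (le_abs_self _).trans ((φ.le_opNorm _).trans (mul_le_mul_of_nonneg_left h2 (norm_nonneg _)))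
  have h4 : ∑ n ∈ I, a n * (a n - η) = ∑ n ∈ I, a n ^ 2 - η * ∑ n ∈ I, a n := by
    rw [Finset.mul_sum, ← Finset.sum_sub_distrib]; exact Finset.sum_congr rfl fun n _ => by ring
  have h5 : η * ∑ n ∈ I, a n ≤ ε := by
    calc η * ∑ n ∈ I, a n ≤ η * (∑ n ∈ I, a n + 1) := by nlinarith
      _ = ε := div_mul_cancel₀ _ hden.ne'
  show ∑ n ∈ I, a n ^ 2 ≤ ‖φ‖ * Real.sqrt (∑ n ∈ I, a n ^ 2) + ε
  linarith

lemma norm_sum_proj_le (I : Finset ℕ) (φ : ∀ n, StrongDual ℝ (Z n)) :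
    ‖∑ n ∈ I, (φ n).comp (proj n)‖ ≤ Real.sqrt (∑ n ∈ I, ‖φ n‖ ^ 2) := by
  refine ContinuousLinearMap.opNorm_le_bound _ (Real.sqrt_nonneg _) fun x => ?_
  simp only [sum_apply, ContinuousLinearMap.comp_apply, proj_apply]
  refine (norm_sum_le _ _).trans ((Finset.sum_le_sum fun n _ => (φ n).le_opNorm _).trans ?_)
  refine (Real.sum_mul_le_sqrt_mul_sqrt _ _ _).trans (mul_le_mul_of_nonneg_left ?_ (Real.sqrt_nonneg _))
  rw [Real.sqrt_le_left (norm_nonneg x)]
  exact sum_norm_sq_le x I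

theorem isReflexive_X : IsReflexive X := by
  intro Φ
  have hz : ∀ n, ∃ z : Z n, ∀ φ : StrongDual ℝ (Z n), Φ (φ.comp (proj n)) = φ z := fun n =>
    Z_reflexive n (Φ.comp ((ContinuousLinearMap.compL ℝ X (Z n) ℝ).flip (proj n)))
  choose z hz using hz
  have hbound : ∀ I : Finset ℕ, ∑ n ∈ I, ‖z n‖ ^ 2 ≤ ‖Φ‖ ^ 2 := by
    intro I
    refine le_of_sq_le_mul_sqrt (ContinuousLinearMap.opNorm_nonneg Φ) (Finset.sum_nonneg fun n _ => sq_nonneg _) ?_
    have hd : ∀ n, ∃ g : StrongDual ℝ (Z n), ‖g‖ ≤ 1 ∧ g (z n) = ‖z n‖ := fun n => by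
      obtain ⟨g, hg1, hg2⟩ := exists_dual_vector'' ℝ (z n)
      exact ⟨g, hg1, by simpa using hg2⟩
    choose g hg1 hg2 using hd
    have h1 : Φ (∑ n ∈ I, (‖z n‖ • g n).comp (proj n)) = ∑ n ∈ I, ‖z n‖ ^ 2 := by
      rw [map_sum]
      refine Finset.sum_congr rfl fun n _ => ?_
      rw [hz, smul_apply, hg2, smul_eq_mul, sq]
    rw [← h1]
    refine (le_abs_self _).trans ((Φ.le_opNorm _).trans (mul_le_mul_of_nonneg_left ?_ (ContinuousLinearMap.opNorm_nonneg Φ)))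
    refine (norm_sum_proj_le I _).trans (Real.sqrt_le_sqrt ?_)
    rw [h1]
    refine Finset.sum_le_sum fun n _ => ?_
    rw [norm_smul, norm_norm, mul_pow]
    have : ‖g n‖ ^ 2 ≤ 1 := by nlinarith [hg1 n, norm_nonneg (g n)]
    nlinarith [sq_nonneg ‖z n‖]
  let x : X := ⟨z, memℓp_gen' (C := ‖Φ‖ ^ 2) fun s => by simpa using hbound s⟩
  refine ⟨x, ContinuousLinearMap.ext fun φ => ?_⟩
  rw [NormedSpace.dual_def]
  let ψ : ℕ → StrongDual ℝ X := fun n => (φ.comp (incl n)).comp (proj n)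
  have hsum : Summable fun n => ‖φ.comp (incl n)‖ ^ 2 :=
    summable_of_sum_le (fun n => sq_nonneg _) (sum_dual_sq_le φ)
  have hψ : Summable ψ := by
    rw [summable_iff_vanishing_norm]
    intro ε hε
    obtain ⟨s, hs⟩ := summable_iff_vanishing_norm.1 hsum (ε ^ 2) (by positivity)
    refine ⟨s, fun t ht => lt_of_le_of_lt (norm_sum_proj_le t fun n => φ.comp (incl n)) ?_⟩
    have := hs t ht
    rw [Real.norm_of_nonneg (Finset.sum_nonneg fun n _ => sq_nonneg _)] at this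
    exact (Real.sqrt_lt' hε).2 this
  obtain ⟨φ', hφ'⟩ := hψ
  have heq : φ' = φ := ContinuousLinearMap.ext fun y => by
    have h1 := hφ'.mapL ((ContinuousLinearMap.apply ℝ ℝ) y)
    have h2 := (hasSum_incl y).mapL φ
    exact h1.unique (by simpa [ψ, proj_apply] using h2)
  rw [heq] at hφ'
  have h3 := hφ'.mapL Φ
  have h4 : HasSum (fun n => φ (incl n (z n))) (Φ φ) := by simpa [ψ, hz] using h3
  exact ((hasSum_incl x).mapL φ).unique h4

end Vale.Agent.P069
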