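import Vale.Agent.P069.Duality

/-!
The norm is AMUC and there is no equivalent AUC norm.
-/

namespace Vale.Agent.P069

open Finset Filter
open scoped Topology RealInnerProductSpace

lemma max_norm_scale {E : Type*} [NormedAddCommGroup E] [NormedSpace ℝ E] (x y : E) {t : ℝ} (ht : 1 ≤ t)
    (N : Seminorm ℝ E) (hx : N x = 1) (h1 : 1 ≤ N (x + y)) : N (x + y) ≤ N (x + t • y) := by
  have h : x + y = (1 - 1 / t) • x + (1 / t) • (x + t • y) := by
    have : (1 / t) * t = 1 := by field_simp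
    rw [smul_add, smul_smul, this, one_smul, ← add_assoc, ← add_smul, sub_add_cancel, one_smul]
  have h0 : 0 ≤ 1 - 1 / t := by rw [sub_nonneg, div_le_one (by linarith)]; exact ht
  have h2 : N (x + y) ≤ (1 - 1 / t) * 1 + (1 / t) * N (x + t • y) := by
    conv_lhs => rw [h]
    refine (map_add_le_add N _ _).trans (le_of_eq ?_)
    rw [map_smul_eq_mul, map_smul_eq_mul, hx, Real.norm_of_nonneg h0, Real.norm_of_nonneg (by positivity)]
  have h3 : t * N (x + y) ≤ t * ((1 - 1 / t) * 1 + (1 / t) * N (x + t • y)) :=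
    mul_le_mul_of_nonneg_left h2 (by linarith)
  have h4 : t * ((1 - 1 / t) * 1 + (1 / t) * N (x + t • y)) = t - 1 + N (x + t • y) := by field_simp
  nlinarith [mul_le_mul_of_nonneg_left (sub_nonneg.2 h1) (sub_nonneg.2 ht)]

/-- The combination of one component of the test functional. -/
lemma component_functionals {n : ℕ} {T : Set (List ℕ)} (hT : IsRootClosed T) {f g : H n} (hf : f ∈ ball n)
    (hg : g ∈ ball n) {c d : ℝ} {b : ℝ} (hb : 0 ≤ b) :
    ∃ f₀ g₀ g₁ g₂ : H n,
      (∀ v : Node n, f₀ v + incr (fun q => pref f q - pref f (exitNode T q)) v = incr (pref f) v) ∧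
      (∀ v : Node n, v.1 ∈ T → f v = f₀ v) ∧ (∀ v : Node n, v.1 ∉ T → f₀ v = 0) ∧
      (∀ v : Node n, v.1 ∈ T → g₁ v = 0 ∧ g₂ v = 0) ∧ (∀ v : Node n, v.1 ∉ T → g₀ v = d * g v) ∧
      g₁ + g₂ = g₀ ∧ Jle n (pref g₁) (d ^ 2) ∧ Jle n (pref g₂) (d ^ 2) ∧
      Jle n (pref (c • f₀ + b • g₁)) (c ^ 2 + 3 * b ^ 2 * d ^ 2) ∧
      Jle n (pref (c • f₀ - b • g₂)) (c ^ 2 + 3 * b ^ 2 * d ^ 2) := by
  have key : ∀ v : Node n, incr (pref f) v = f v := fun v => by
    have hlen := List.length_pos_iff.2 v.2.1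
    rw [incr, List.dropLast_eq_take, pref_sub_pref f (Nat.sub_le _ _)]
    simp [segNodes, show Finset.Ioc (v.1.length - 1) v.1.length = {v.1.length} by ext j; simp; lia, ext0, v.2]
  have keyg : ∀ v : Node n, incr (pref g) v = g v := fun v => by
    have hlen := List.length_pos_iff.2 v.2.1
    rw [incr, List.dropLast_eq_take, pref_sub_pref g (Nat.sub_le _ _)]
    simp [segNodes, show Finset.Ioc (v.1.length - 1) v.1.length = {v.1.length} by ext j; simp; lia, ext0, v.2]
  have hex : ∀ q ∈ T, exitNode T q = q := fun q hq =>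
    List.take_of_length_le ((take_mem_iff hT le_rfl).1 (by rwa [List.take_length]))
  have hdl : ∀ v : Node n, (v.1 ∈ T → v.1.dropLast ∈ T) ∧ (v.1 ∉ T → exitNode T v.1.dropLast = exitNode T v.1) := by
    intro v
    constructor
    · intro h; rw [List.dropLast_eq_take]; exact hT.2 _ h _
    · intro h
      have h1 : exitLen T v.1 < v.1.length := by
        by_contra hc
        exact h (by have := exitNode_mem hT v.1; rwa [exitNode, List.take_of_length_le (not_lt.1 hc)] at this)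
      rw [List.dropLast_eq_take]
      exact exitNode_take hT (Nat.sub_le _ _) (by lia)
  have hscale : ∀ (P : List ℕ → ℝ) (r : ℝ), Jle n P 1 → Jle n (fun q => r * P q) (r ^ 2) := fun P r hP S hS => by
    refine le_trans (le_of_eq (Finset.sum_congr rfl fun a _ =>
      show segVal _ a = r ^ 2 * segVal P a from by simp only [segVal]; ring)) ?_
    rw [← Finset.mul_sum]
    exact mul_le_of_le_one_right (sq_nonneg r) (hP S hS)
  obtain ⟨hPf, hQf⟩ := Jle_exit hT hf
  obtain ⟨-, hQg⟩ := Jle_exit hT hg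
  set F : List ℕ → ℝ := fun q => c * pref f (exitNode T q)
  set G : List ℕ → ℝ := fun q => d * (pref g q - pref g (exitNode T q))
  have hF : Jle n F (c ^ 2) := hscale _ c hPf
  have hG : Jle n G (d ^ 2) := hscale _ d hQg
  have hG0 : ∀ q ∈ T, G q = 0 := fun q hq => by simp [G, hex q hq]
  have hFs : ∀ q, q.length ≤ n → F q = F (exitNode T q) := fun q _ => by
    simp [F, hex _ (exitNode_mem hT q)]
  have hexnil : exitNode T [] = [] := hex [] hT.1
  obtain ⟨σ, hσ⟩ := exists_clip hT hF hG hFs hG0 hb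
  set G1 : List ℕ → ℝ := fun q => clip (xor false (σ (exitNode T q))) (G q)
  set G2 : List ℕ → ℝ := fun q => clip (xor true (σ (exitNode T q))) (G q)
  have hG1 : Jle n G1 (d ^ 2) := (hσ false).1
  have hG2 : Jle n G2 (d ^ 2) := (hσ true).1
  have hG1T : ∀ q ∈ T, G1 q = 0 := fun q hq => by simp [G1, hG0 q hq, clip_zero]
  have hG2T : ∀ q ∈ T, G2 q = 0 := fun q hq => by simp [G2, hG0 q hq, clip_zero]
  have hsum : ∀ q, G1 q + G2 q = G q := fun q => by
    simp only [G1, G2, Bool.false_xor, Bool.true_xor]; exact clip_add _ _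
  refine ⟨ofPref hPf, ofPref hG, ofPref hG1, ofPref hG2, fun v => ?_, fun v hv => ?_, fun v hv => ?_,
    fun v hv => ?_, fun v hv => ?_, ?_, ?_, ?_, ?_, ?_⟩
  · simp only [ofPref_apply, incr]; ring
  · rw [ofPref_apply, ← key v]
    simp [incr, hex _ hv, hex _ ((hdl v).1 hv)]
  · simp [ofPref_apply, incr, (hdl v).2 hv]
  · simp [ofPref_apply, incr, hG1T _ hv, hG2T _ hv, hG1T _ ((hdl v).1 hv), hG2T _ ((hdl v).1 hv)]
  · rw [ofPref_apply, ← keyg v]
    simp only [incr, G, (hdl v).2 hv]; ring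
  · ext v
    simp only [lp.coeFn_add, Pi.add_apply, ofPref_apply, incr, ← hsum]; ring
  · exact Jle_pref_ofPref hG1 (hG1T [] hT.1)
  · exact Jle_pref_ofPref hG2 (hG2T [] hT.1)
  all_goals
    have hp : ∀ (r : ℝ) {P : List ℕ → ℝ} {e : ℝ} (h : Jle n P e), P [] = 0 → ∀ q : List ℕ, q.length ≤ n →
        pref (c • ofPref hPf + r • ofPref h) q = F q + r * P q := by
      intro r P e h hP0 q hq
      have hadd : ∀ (u v : H n), pref (u + v) q = pref u q + pref v q := fun u v => by
        simp only [pref, ← Finset.sum_add_distrib]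
        refine Finset.sum_congr rfl fun j _ => ?_
        by_cases h : q.take (j + 1) ≠ [] ∧ (q.take (j + 1)).length ≤ n
        · simp only [ext0, dif_pos h, lp.coeFn_add, Pi.add_apply]
        · simp only [ext0, dif_neg h, add_zero]
      rw [hadd, pref_smul, pref_smul, pref_ofPref hPf (by rw [hexnil, pref_nil]) hq, pref_ofPref h hP0 hq]
  · exact Jle_congr (hσ false).2 fun q hq => by rw [hp b hG1 (hG1T [] hT.1) q hq]; rfl
  · rw [sub_eq_add_neg, ← neg_smul]
    exact Jle_congr (hσ true).2 fun q hq => by rw [hp (-b) hG2 (hG2T [] hT.1) q hq]; rfl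

lemma incr_pref {n : ℕ} (f : H n) (v : Node n) : incr (pref f) v = f v := by
  have hlen := List.length_pos_iff.2 v.2.1
  rw [incr, List.dropLast_eq_take, pref_sub_pref _ (Nat.sub_le _ _)]
  simp [segNodes, show Finset.Ioc (v.1.length - 1) v.1.length = {v.1.length} by ext j; simp; lia, ext0, v.2]

lemma norm_le_of_Jle_sq {n : ℕ} {w : H n} {r : ℝ} (hr : 0 ≤ r) (h : Jle n (pref w) (r ^ 2)) : ‖w‖ ≤ r :=
  le_of_pow_le_pow_left₀ two_ne_zero hr (norm_sq_le_of_Jle h)

lemma abs_inner_le_of_Jle {n : ℕ} {w : H n} {r : ℝ} (hr : 0 ≤ r) (h : Jle n (pref w) (r ^ 2)) (z : Z n) :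
    |⟪w, toH n z⟫| ≤ r * ‖z‖ := by
  have a1 := inner_le_of_Jle h (toH n z)
  have a2 := inner_le_of_Jle h (-toH n z)
  rw [inner_neg_right, nrm_neg, Real.sqrt_sq hr] at a2
  rw [Real.sqrt_sq hr] at a1
  rw [norm_def, abs_le]
  exact ⟨by linarith, a1⟩

lemma pairing_small {n : ℕ} {T : Set (List ℕ)} {Q : Finset (Node n)} (hQ : ∀ v ∈ Q, v.1 ∈ T) {w : H n}
    (hw : ∀ v : Node n, v.1 ∈ T → w v = 0) (z : H n) :
    |⟪w, z⟫| ≤ ‖w‖ * ‖z - ∑ v ∈ Q, lp.single 2 v (z v)‖ := by
  have : ⟪w, z⟫ = ⟪w, z - ∑ v ∈ Q, lp.single 2 v (z v)⟫ := by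
    rw [inner_sub_right, inner_sum, Finset.sum_eq_zero fun v hv => ?_, sub_zero]
    rw [lp.inner_single_right]
    simp [hw v (hQ v hv)]
  rw [this]
  exact abs_real_inner_le_norm _ _

/-- Window data for a vector. -/
structure Window (x : X) (η : ℝ) where
  I : Finset ℕ
  T : ℕ → Set (List ℕ)
  Q : ∀ n, Finset (Node n)
  root : ∀ n, IsRootClosed (T n)
  fin : ∀ n, (T n).Finite
  triv : ∀ n, n ∉ I → ∀ v : Node n, v.1 ∉ T n
  mass : 1 - η ^ 2 < ∑ n ∈ I, ‖x n‖ ^ 2
  sub : ∀ n ∈ I, ∀ v ∈ Q n, v.1 ∈ T n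
  close : ∀ n, ‖toH n (x n) - ∑ v ∈ Q n, lp.single 2 v (toH n (x n) v)‖ ≤ η / (I.card + 1)

lemma exists_window {x : X} (hx : ‖x‖ = 1) {η : ℝ} (hη : 0 < η) : Nonempty (Window x η) := by
  classical
  obtain ⟨I, hI⟩ : ∃ I : Finset ℕ, 1 - η ^ 2 < ∑ n ∈ I, ‖x n‖ ^ 2 := by
    have h := lp.hasSum_norm (p := 2) (by norm_num) x
    have h' : HasSum (fun n => ‖x n‖ ^ 2) 1 := by simpa [hx] using h
    have hlt : 1 - η ^ 2 < 1 := by
      have : 0 < η ^ 2 := by positivity
      linarith
    exact ((show Tendsto (fun s : Finset ℕ => ∑ n ∈ s, ‖x n‖ ^ 2) atTop (𝓝 1) from h').eventually_const_lt hlt).exists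
  have happrox : ∀ n, ∃ Q : Finset (Node n),
      ‖toH n (x n) - ∑ v ∈ Q, lp.single 2 v (toH n (x n) v)‖ ≤ η / (I.card + 1) := fun n => by
    have hη' : 0 < η / ((I.card : ℝ) + 1) := by positivity
    have h : Tendsto (fun s : Finset (Node n) => ∑ v ∈ s, lp.single 2 v (toH n (x n) v)) atTop (𝓝 (toH n (x n))) :=
      lp.hasSum_single (by norm_num) (toH n (x n))
    obtain ⟨Q, hQ⟩ := (Metric.tendsto_nhds.1 h _ hη').exists
    exact ⟨Q, by rw [norm_sub_rev, ← dist_eq_norm]; exact hQ.le⟩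
  choose Q hQ using happrox
  let T : ℕ → Set (List ℕ) := fun n =>
    insert [] {q | n ∈ I ∧ ∃ v ∈ Q n, ∃ j ≤ v.1.length, q = v.1.take j}
  refine ⟨⟨I, T, Q, fun n => ⟨Set.mem_insert _ _, fun q hq j => ?_⟩, fun n => ?_, fun n hn v hv => ?_, hI,
    fun n hn v hv => ?_, hQ⟩⟩
  · rcases hq with rfl | ⟨hn, v, hv, i, hi, rfl⟩
    · left; simp
    · right; exact ⟨hn, v, hv, min j i, by lia, by rw [List.take_take]⟩
  · refine Set.Finite.insert _ (Set.Finite.subset ((Q n).finite_toSet.biUnion fun v _ =>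
      (Set.finite_Iic v.1.length).image fun j => v.1.take j) ?_)
    rintro q ⟨-, v, hv, j, hj, rfl⟩
    exact Set.mem_biUnion hv ⟨j, hj, rfl⟩
  · rcases hv with h | ⟨h, -⟩
    · exact v.2.1 h
    · exact hn h
  · exact Set.mem_insert_of_mem _ ⟨hn, v, hv, v.1.length, le_rfl, List.take_length.symm⟩

lemma card_mul_le {η : ℝ} (hη : 0 ≤ η) (k : ℕ) : (k : ℝ) * (η / (k + 1)) ≤ η := by
  rw [← mul_div_assoc, div_le_iff₀ (by positivity)]
  nlinarith

lemma small_sum {x : X} {η : ℝ} (hη : 0 < η) (hx : ‖x‖ = 1) (W : Window x η) {J : Finset ℕ} (hIJ : W.I ⊆ J)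
    {r : ℕ → ℝ} (hr0 : ∀ n, 0 ≤ r n) (hr1 : ∑ n ∈ J, r n ^ 2 ≤ 1) {w : ∀ n, H n}
    (hw : ∀ n, ∀ v : Node n, v.1 ∈ W.T n → w n v = 0) (hwJ : ∀ n, Jle n (pref (w n)) (r n ^ 2)) :
    |∑ n ∈ J, ⟪w n, toH n (x n)⟫| ≤ 2 * η := by
  rw [← Finset.sum_sdiff hIJ]
  refine (abs_add_le _ _).trans ?_
  have e1 : |∑ n ∈ W.I, ⟪w n, toH n (x n)⟫| ≤ η := by
    refine (Finset.abs_sum_le_sum_abs _ _).trans ((Finset.sum_le_sum fun n hn => ?_).trans
      (show ∑ _n ∈ W.I, η / ((W.I.card : ℝ) + 1) ≤ η by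
        rw [Finset.sum_const, nsmul_eq_mul]; exact card_mul_le hη.le _))
    refine (pairing_small (W.sub n hn) (hw n) _).trans ?_
    have hr : r n ≤ 1 := by
      have := Finset.single_le_sum (f := fun n => r n ^ 2) (fun n _ => sq_nonneg _) (hIJ hn)
      nlinarith [hr0 n]
    calc ‖w n‖ * ‖toH n (x n) - ∑ v ∈ W.Q n, lp.single 2 v (toH n (x n) v)‖
        ≤ 1 * (η / ((W.I.card : ℝ) + 1)) :=
          mul_le_mul ((norm_le_of_Jle_sq (hr0 n) (hwJ n)).trans hr) (W.close n) (norm_nonneg _) zero_le_one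
      _ = _ := one_mul _
  have e2 : |∑ n ∈ J \ W.I, ⟪w n, toH n (x n)⟫| ≤ η := by
    refine (Finset.abs_sum_le_sum_abs _ _).trans ((Finset.sum_le_sum fun n _ =>
      abs_inner_le_of_Jle (hr0 n) (hwJ n) (x n)).trans ?_)
    refine (Real.sum_mul_le_sqrt_mul_sqrt _ _ _).trans ?_
    calc Real.sqrt (∑ n ∈ J \ W.I, r n ^ 2) * Real.sqrt (∑ n ∈ J \ W.I, ‖x n‖ ^ 2) ≤ 1 * η := by
          refine mul_le_mul ?_ ?_ (Real.sqrt_nonneg _) zero_le_one
          · rw [Real.sqrt_le_one]
            exact (Finset.sum_le_sum_of_subset_of_nonneg Finset.sdiff_subset fun n _ _ => sq_nonneg _).trans hr1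
          · rw [Real.sqrt_le_left hη.le]
            have h := sum_norm_sq_le x J
            rw [hx, ← Finset.sum_sdiff hIJ] at h
            linarith [W.mass]
      _ = η := one_mul _
  linarith

lemma inner_combination {n : ℕ} (f w x y : H n) (c b t : ℝ) :
    ⟪c • f + b • w, x + t • y⟫ = c * ⟪f, x⟫ + c * t * ⟪f, y⟫ + b * ⟪w, x⟫ + b * t * ⟪w, y⟫ := by
  simp only [inner_add_left, inner_add_right, real_inner_smul_left, real_inner_smul_right]; ring

/-- The evaluation of the two test functionals. -/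
lemma window_bound {t : ℝ} (ht : 0 < t) (ht1 : t ≤ 1) {x : X} (hx : ‖x‖ = 1) {η : ℝ} (hdef : η = t ^ 2 / 1000)
    (W : Window x η)
    {y : X} (hy1 : ‖y‖ = 1) (hy0 : ∀ n ∈ W.I, ∀ v : Node n, v.1 ∈ W.T n → toH n (y n) v = 0) :
    1 + t ^ 2 / 100 ≤ max ‖x + t • y‖ ‖x - t • y‖ := by
  classical
  have hη : 0 < η := by rw [hdef]; positivity
  obtain ⟨J, hIJ, hJ⟩ : ∃ J : Finset ℕ, W.I ⊆ J ∧ 1 - η < ∑ n ∈ J, ‖y n‖ ^ 2 := by
    have h := lp.hasSum_norm (p := 2) (by norm_num) y
    have h' : HasSum (fun n => ‖y n‖ ^ 2) 1 := by simpa [hy1] using h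
    obtain ⟨J, hJ1, hJ2⟩ := ((eventually_ge_atTop W.I).and
      ((show Tendsto (fun s : Finset ℕ => ∑ n ∈ s, ‖y n‖ ^ 2) atTop (𝓝 1) from h').eventually_const_lt
      (by linarith : 1 - η < 1))).exists
    exact ⟨J, hJ1, hJ2⟩
  have hJ1 : ∑ n ∈ J, ‖y n‖ ^ 2 ≤ 1 := by simpa [hy1] using sum_norm_sq_le y J
  have hI1 : ∑ n ∈ W.I, ‖x n‖ ^ 2 ≤ 1 := by simpa [hx] using sum_norm_sq_le x W.I
  have hnear : ∀ n (z : Z n) (ε : ℝ), 0 < ε → ∃ f ∈ ball n, ‖z‖ - ε ≤ ⟪f, toH n z⟫ := fun n z ε hε => by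
    by_contra hc
    push Not at hc
    have := nrm_le (r := ‖z‖ - ε) fun f hf => (hc f hf).le
    rw [← norm_def] at this
    linarith
  choose f hf hfx using fun n => hnear n (x n) (η / (W.I.card + 1)) (by positivity)
  choose g hg hgy using fun n => hnear n (y n) (η / (J.card + 1)) (by positivity)
  set b := t / 6
  have hb0 : 0 ≤ b := by positivity
  set c : ℕ → ℝ := fun n => if n ∈ W.I then ‖x n‖ else 0
  choose f₀ g₀ g₁ g₂ h1 h2 h3 h4 h5 h6 h7 h8 h9 h10 using fun n =>
    component_functionals (W.root n) (hf n) (hg n) (c := c n) (d := ‖y n‖) (b := b) hb0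
  have hcI : ∀ φ : ℕ → ℝ, ∑ n ∈ J, c n * φ n = ∑ n ∈ W.I, ‖x n‖ * φ n := by
    intro φ
    rw [← Finset.sum_subset hIJ fun n _ hn => by simp [c, hn]]
    exact Finset.sum_congr rfl fun n hn => by simp [c, hn]
  have hfval : 1 - η ^ 2 - 2 * η ≤ ∑ n ∈ J, c n * ⟪f₀ n, toH n (x n)⟫ := by
    rw [hcI]
    have h' : ∀ n ∈ W.I, ‖x n‖ ^ 2 - 2 * (η / (W.I.card + 1)) ≤ ‖x n‖ * ⟪f₀ n, toH n (x n)⟫ := by
      intro n hn
      obtain ⟨-, hQf⟩ := Jle_exit (W.root n) (hf n)
      have heq : f n - f₀ n = ofPref hQf := by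
        apply lp.ext; funext v
        rw [lp.coeFn_sub, Pi.sub_apply, ofPref_apply]
        linarith [h1 n v, incr_pref (f n) v]
      have hwJ : Jle n (pref (f n - f₀ n)) ((1 : ℝ) ^ 2) := by
        rw [heq, one_pow]
        refine Jle_pref_ofPref hQf ?_
        simp [exitNode]
      have e1 : |⟪f n - f₀ n, toH n (x n)⟫| ≤ η / (W.I.card + 1) := by
        refine (pairing_small (W.sub n hn) (fun v hv => by simp [h2 n v hv]) _).trans ?_
        calc ‖f n - f₀ n‖ * ‖toH n (x n) - ∑ v ∈ W.Q n, lp.single 2 v (toH n (x n) v)‖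
            ≤ 1 * (η / ((W.I.card : ℝ) + 1)) :=
              mul_le_mul (norm_le_of_Jle_sq zero_le_one hwJ) (W.close n) (norm_nonneg _) zero_le_one
          _ = _ := one_mul _
      rw [inner_sub_left, abs_le] at e1
      have hxn : ‖x n‖ ≤ 1 := hx ▸ lp.norm_apply_le_norm two_ne_zero x n
      have hq : 0 ≤ η / ((W.I.card : ℝ) + 1) := by positivity
      nlinarith [norm_nonneg (x n), hfx n]
    refine le_trans ?_ (Finset.sum_le_sum h')
    rw [Finset.sum_sub_distrib, Finset.sum_const, nsmul_eq_mul]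
    linarith [card_mul_le hη.le W.I.card, W.mass]
  have hgval : 1 - 2 * η ≤ ∑ n ∈ J, ⟪g₀ n, toH n (y n)⟫ := by
    have h' : ∀ n ∈ J, ‖y n‖ ^ 2 - η / (J.card + 1) ≤ ⟪g₀ n, toH n (y n)⟫ := by
      intro n _
      have heq : ⟪g₀ n, toH n (y n)⟫ = ‖y n‖ * ⟪g n, toH n (y n)⟫ := by
        rw [← real_inner_smul_left, lp.inner_eq_tsum, lp.inner_eq_tsum]
        refine tsum_congr fun v => ?_
        by_cases hv : v.1 ∈ W.T n
        · by_cases hn : n ∈ W.I
          · simp [hy0 n hn v hv]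
          · exact absurd hv (W.triv n hn v)
        · simp [h5 n v hv]
      rw [heq]
      have hyn : ‖y n‖ ≤ 1 := hy1 ▸ lp.norm_apply_le_norm two_ne_zero y n
      have hq : 0 ≤ η / ((J.card : ℝ) + 1) := by positivity
      nlinarith [norm_nonneg (y n), hgy n]
    refine le_trans ?_ (Finset.sum_le_sum h')
    rw [Finset.sum_sub_distrib, Finset.sum_const, nsmul_eq_mul]
    linarith [card_mul_le hη.le J.card]
  have hfy : ∑ n ∈ J, c n * ⟪f₀ n, toH n (y n)⟫ = 0 := by
    rw [hcI]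
    refine Finset.sum_eq_zero fun n hn => ?_
    rw [lp.inner_eq_tsum, tsum_congr fun v => ?_, tsum_zero, mul_zero]
    by_cases hv : v.1 ∈ W.T n
    · simp [hy0 n hn v hv]
    · simp [h3 n v hv]
  have e1 := abs_le.1 (small_sum hη hx W hIJ (fun n => norm_nonneg (y n)) hJ1
    (fun n v hv => (h4 n v hv).1) h7)
  have e2 := abs_le.1 (small_sum hη hx W hIJ (fun n => norm_nonneg (y n)) hJ1
    (fun n v hv => (h4 n v hv).2) h8)
  have hh := sum_inner_le (x + t • y) J (fun n => c n • f₀ n + b • g₁ n) _ fun n _ => h9 n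
  have hk := sum_inner_le (x + (-t) • y) J (fun n => c n • f₀ n + (-b) • g₂ n) _ fun n _ => by
    simpa only [neg_smul, ← sub_eq_add_neg] using h10 n
  have ev : ∀ (w : ∀ n, H n) (b t : ℝ), ∑ n ∈ J, ⟪c n • f₀ n + b • w n, toH n ((x + t • y) n)⟫
      = ∑ n ∈ J, c n * ⟪f₀ n, toH n (x n)⟫ + t * ∑ n ∈ J, c n * ⟪f₀ n, toH n (y n)⟫
        + b * ∑ n ∈ J, ⟪w n, toH n (x n)⟫ + b * t * ∑ n ∈ J, ⟪w n, toH n (y n)⟫ := by
    intro w b t
    rw [Finset.mul_sum, Finset.mul_sum, Finset.mul_sum, ← Finset.sum_add_distrib, ← Finset.sum_add_distrib,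
      ← Finset.sum_add_distrib]
    refine Finset.sum_congr rfl fun n _ => ?_
    rw [lp.coeFn_add, Pi.add_apply, lp.coeFn_smul, Pi.smul_apply, map_add, map_smul, inner_combination]
    ring
  rw [ev, hfy] at hh hk
  have hg0 : ∑ n ∈ J, ⟪g₀ n, toH n (y n)⟫
      = ∑ n ∈ J, ⟪g₁ n, toH n (y n)⟫ + ∑ n ∈ J, ⟪g₂ n, toH n (y n)⟫ := by
    rw [← Finset.sum_add_distrib]
    exact Finset.sum_congr rfl fun n _ => by rw [← inner_add_left, h6]
  have hS : Real.sqrt (∑ n ∈ J, (c n ^ 2 + 3 * b ^ 2 * ‖y n‖ ^ 2)) ≤ 1 + t ^ 2 / 24 := by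
    have hc2 : ∑ n ∈ J, c n ^ 2 = ∑ n ∈ W.I, ‖x n‖ ^ 2 := by
      simp only [sq]
      rw [hcI]
      exact Finset.sum_congr rfl fun n hn => by simp [c, hn]
    rw [Real.sqrt_le_left (by positivity), Finset.sum_add_distrib, hc2, ← Finset.mul_sum]
    have : 3 * b ^ 2 = t ^ 2 / 12 := by simp only [b]; ring
    rw [this]
    nlinarith [mul_le_mul_of_nonneg_left hJ1 (show (0 : ℝ) ≤ t ^ 2 / 12 by positivity), sq_nonneg (t ^ 2)]
  rw [neg_smul, ← sub_eq_add_neg] at hk
  set M := max ‖x + t • y‖ ‖x - t • y‖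
  have hM0 : 0 ≤ M := le_trans (norm_nonneg _) (le_max_left _ _)
  have hh' := hh.trans (mul_le_mul hS (le_max_left _ ‖x - t • y‖) (norm_nonneg _) (by positivity))
  have hk' := hk.trans (mul_le_mul hS (le_max_right ‖x + t • y‖ _) (norm_nonneg _) (by positivity))
  have hlow : 2 * (1 - η ^ 2 - 2 * η) + b * t * (1 - 2 * η) - 4 * η * b ≤ 2 * ((1 + t ^ 2 / 24) * M) := by
    change _ ≤ (1 + t ^ 2 / 24) * M at hh'
    change _ ≤ (1 + t ^ 2 / 24) * M at hk'
    rw [hg0] at hgval
    nlinarith [mul_le_mul_of_nonneg_left hgval (mul_nonneg hb0 ht.le), mul_le_mul_of_nonneg_left e1.1 hb0,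
      mul_le_mul_of_nonneg_left e2.2 hb0]
  by_contra hc
  have : (1 + t ^ 2 / 24) * M ≤ (1 + t ^ 2 / 24) * (1 + t ^ 2 / 100) :=
    mul_le_mul_of_nonneg_left (not_le.1 hc).le (by positivity)
  simp only [b, hdef] at hlow
  nlinarith [mul_le_mul_of_nonneg_left ht1 (sq_nonneg t), mul_le_mul_of_nonneg_left ht1 ht.le,
    mul_le_mul_of_nonneg_left ht1 (mul_nonneg (sq_nonneg t) ht.le), sq_nonneg (t ^ 2)]

/-- The coordinate functional of a node. -/
noncomputable def coordL (n : ℕ) (v : Node n) : X →L[ℝ] ℝ :=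
  (LinearMap.mk { toFun := fun y : X => toH n (y n) v
                  map_add' := fun a b => by simp [lp.coeFn_add, map_add] }
    fun c a => by simp [lp.coeFn_smul, map_smul]).mkContinuous (Real.sqrt n) fun y => by
    show ‖toH n (y n) v‖ ≤ _
    refine (lp.norm_apply_le_norm two_ne_zero _ v).trans ((norm_le_mul_nrm _).trans ?_)
    exact mul_le_mul_of_nonneg_left (lp.norm_apply_le_norm two_ne_zero y n) (Real.sqrt_nonneg _)

lemma amuc_small {t : ℝ} (ht : 0 < t) (ht1 : t ≤ 1) (x : X) (hx : ‖x‖ = 1) :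
    ∃ F : Submodule ℝ X, IsCof F ∧ ∀ y ∈ F, ‖y‖ = 1 →
      1 + t ^ 2 / 100 ≤ max ‖x + t • y‖ ‖x - t • y‖ := by
  obtain ⟨W⟩ := exists_window hx (show 0 < t ^ 2 / 1000 by positivity)
  let ι := Σ n : {n // n ∈ W.I}, {v : Node n // v.1 ∈ W.T n}
  have : ∀ n : {n // n ∈ W.I}, Finite {v : Node n // v.1 ∈ W.T n} := fun n => by
    have := (W.fin n).to_subtype
    exact Finite.of_injective (β := W.T n) (fun v => ⟨v.1.1, v.2⟩)
      (fun a b h => Subtype.ext (Subtype.ext (congr_arg (fun z : W.T n => z.1) h)))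
  let L : X →L[ℝ] (ι → ℝ) := ContinuousLinearMap.pi fun p => coordL p.1 p.2.1
  refine ⟨LinearMap.ker L.toLinearMap, ⟨L.isClosed_ker, ?_⟩, fun y hy hy1 => ?_⟩
  · exact LinearEquiv.finiteDimensional L.toLinearMap.quotKerEquivRange.symm
  exact window_bound ht ht1 hx rfl W hy1 fun n hn v hv =>
    congr_fun (LinearMap.mem_ker.1 hy) (⟨⟨n, hn⟩, v, hv⟩ : ι)

theorem norm_isAMUC : IsAMUC (normSeminorm ℝ X) := by
  intro t ht
  refine ⟨(min t 1) ^ 2 / 100, by positivity, fun x hx => ?_⟩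
  obtain ⟨F, hF, h⟩ := amuc_small (lt_min ht one_pos) (min_le_right t 1) x hx
  refine ⟨F, hF, fun y hy hy1 => ?_⟩
  have h0 := h y hy hy1
  rcases le_or_gt t 1 with h1 | h1
  · rw [min_eq_left h1] at h0 ⊢; exact h0
  · rw [min_eq_right h1.le] at h0 ⊢
    rw [one_smul] at h0
    simp only [coe_normSeminorm]
    rcases le_max_iff.1 h0 with h3 | h3
    · have a1 := max_norm_scale x y h1.le (normSeminorm ℝ X) hx (by simp only [coe_normSeminorm]; linarith)
      simp only [coe_normSeminorm] at a1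
      exact le_max_of_le_left (by linarith)
    · have a2 := max_norm_scale x (-y) h1.le (normSeminorm ℝ X) hx
        (by simp only [coe_normSeminorm, ← sub_eq_add_neg]; linarith)
      simp only [coe_normSeminorm, smul_neg, ← sub_eq_add_neg] at a2
      exact le_max_of_le_right (by linarith)

theorem not_isAUC {N : Seminorm ℝ X} (hN : IsEquivNorm N) : ¬IsAUC N := by
  classical
  intro hA
  obtain ⟨a, A, ha, hN⟩ := hN
  have hA0 : 0 < A ∨ A ≤ 0 := lt_or_ge 0 A
  set A' := max A 1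
  have hA' : 0 < A' := lt_max_of_lt_right one_pos
  have hNA : ∀ x, N x ≤ A' * ‖x‖ := fun x =>
    (hN x).2.trans (mul_le_mul_of_nonneg_right (le_max_left _ _) (norm_nonneg _))
  obtain ⟨δ, hδ, hA⟩ := hA (a / (2 * A')) (by positivity)
  obtain ⟨m, hm⟩ := pow_unbounded_of_one_lt (A' / a) (show 1 < 1 + δ / 2 by linarith)
  set n := m + 1
  let e : List ℕ → Z n := fun q => (toH n).symm
    (if h : q ≠ [] ∧ q.length ≤ n then lp.single 2 ⟨q, h⟩ (1 : ℝ) else 0)
  let pv : List ℕ → Z n := fun q => ∑ j ∈ Finset.range q.length, e (q.take (j + 1))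
  have hinner : ∀ (f : H n) (q : List ℕ), ⟪f, toH n (e q)⟫ = ext0 f q := by
    intro f q
    simp only [e, LinearEquiv.apply_symm_apply, ext0]
    split_ifs with h
    · simp [lp.inner_single_right]
    · simp
  have hpv : ∀ q : List ℕ, q.length ≤ n → ‖incl n (pv q)‖ ≤ 1 := by
    intro q hq
    rw [incl_apply, lp.norm_single (E := fun n => Z n) (by norm_num), norm_def]
    refine nrm_le fun f hf => ?_
    have : ⟪f, toH n (pv q)⟫ = pref f q := by simp [pv, map_sum, inner_sum, hinner, pref]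
    rw [this]
    exact (le_abs_self _).trans (by simpa using abs_le_sqrt_of_Jle hf (pref_nil f) hq)
  have he : ∀ q : List ℕ, q ≠ [] → q.length ≤ n → a ≤ N (incl n (e q)) := by
    intro q h1 h2
    have h3 : 1 ≤ ‖e q‖ := by
      rw [norm_def]
      have hb : (lp.single 2 (⟨q, h1, h2⟩ : Node n) (1 : ℝ) : H n) ∈ ball n := by
        intro S hS
        have hp : ∀ a ∈ S, segVal (pref (lp.single 2 (⟨q, h1, h2⟩ : Node n) (1 : ℝ) : H n)) a
            ≤ if q ∈ segNodes a then 1 else 0 := by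
          intro a ha
          rw [segVal, pref_sub_pref _ (hS.1 a ha).1.le]
          have hv : ∀ v : List ℕ, ext0 (lp.single 2 (⟨q, h1, h2⟩ : Node n) (1 : ℝ) : H n) v = if v = q then 1 else 0 := by
            intro v
            by_cases hv : v ≠ [] ∧ v.length ≤ n
            · rw [ext0, dif_pos hv, lp.single_apply]
              by_cases hq : v = q <;> simp [hq]
            · rw [ext0, dif_neg hv, if_neg]; rintro rfl; exact hv ⟨h1, h2⟩
          simp only [hv, Finset.sum_ite_eq']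
          split_ifs <;> simp
        refine (Finset.sum_le_sum hp).trans ?_
        rw [Finset.sum_boole, Nat.cast_le_one, Finset.card_le_one]
        intro a ha b hb
        simp only [Finset.mem_filter] at ha hb
        by_contra hne
        exact Finset.disjoint_left.1 (hS.2 a ha.1 b hb.1 hne) ha.2 hb.2
      refine le_trans (le_of_eq ?_) (le_nrm hb _)
      rw [hinner, ext0, dif_pos ⟨h1, h2⟩]; simp
    calc a ≤ a * ‖incl n (e q)‖ := by
          rw [incl_apply, lp.norm_single (E := fun n => Z n) (by norm_num)]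
          exact le_mul_of_one_le_right ha.le h3
      _ ≤ N _ := (hN _).1
  have hpv_snoc : ∀ (q : List ℕ) (k : ℕ), pv (q ++ [k]) = pv q + e (q ++ [k]) := by
    intro q k
    simp only [pv, List.length_append, List.length_singleton, Finset.sum_range_succ]
    congr 1
    · refine Finset.sum_congr rfl fun j hj => ?_
      rw [List.take_append_of_le_length (by have := Finset.mem_range.1 hj; lia)]
    · rw [List.take_of_length_le (by simp)]
  have step : ∀ q : List ℕ, q ≠ [] → q.length < n → 0 < N (incl n (pv q)) →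
      ∃ k, (1 + δ / 2) * N (incl n (pv q)) ≤ N (incl n (pv (q ++ [k]))) := by
    intro q hq hqn hpos
    set x := incl n (pv q)
    set x0 := (N x)⁻¹ • x
    have hx0 : N x0 = 1 := by
      rw [map_smul_eq_mul, Real.norm_of_nonneg (by positivity), inv_mul_cancel₀ hpos.ne']
    obtain ⟨F, ⟨hFc, hFd⟩, hF⟩ := hA x0 hx0
    have : IsClosed (F : Set X) := hFc
    obtain ⟨s, hs⟩ := LinearMap.exists_rightInverse_of_surjective F.mkQ (Submodule.range_mkQ F)
    set sC := LinearMap.toContinuousLinearMap s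
    let πC : X →L[ℝ] X ⧸ F := F.mkQ.mkContinuous 1 fun v => by
      rw [one_mul]; exact Submodule.Quotient.norm_mk_le F v
    let L : H n →L[ℝ] X := (sC.comp πC).comp ((incl n).comp (toHL n).symm.toContinuousLinearMap)
    let w : ℕ → X := fun k => incl n (e (q ++ [k]))
    have hnode : ∀ k, q ++ [k] ≠ [] ∧ (q ++ [k]).length ≤ n := fun k => ⟨by simp, by simp; lia⟩
    have hLw : ∀ k, L (lp.single 2 (⟨q ++ [k], hnode k⟩ : Node n) (1 : ℝ)) = sC (πC (w k)) := by
      intro k
      simp only [L, w, e, ContinuousLinearMap.comp_apply, dif_pos (hnode k)]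
      rfl
    have hto : Tendsto (fun k => sC (πC (w k))) atTop (𝓝 0) := by
      have hq0 : Tendsto (fun k => πC (w k)) atTop (𝓝 0) := by
        set bq := Module.finBasis ℝ (X ⧸ F)
        have hcoord : Tendsto (fun k => bq.equivFun (πC (w k))) atTop (𝓝 0) := by
          rw [tendsto_pi_nhds]
          intro i
          let φ : StrongDual ℝ (H n) :=
            ((LinearMap.toContinuousLinearMap (bq.coord i)).comp πC).comp
              ((incl n).comp (toHL n).symm.toContinuousLinearMap)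
          set v := (InnerProductSpace.toDual ℝ (H n)).symm φ
          have hval : ∀ k, bq.equivFun (πC (w k)) i = v ⟨q ++ [k], hnode k⟩ := by
            intro k
            have : φ (lp.single 2 (⟨q ++ [k], hnode k⟩ : Node n) (1 : ℝ)) = bq.equivFun (πC (w k)) i := by
              simp only [φ, w, e, ContinuousLinearMap.comp_apply, dif_pos (hnode k)]
              rfl
            rw [← this, ← InnerProductSpace.toDual_symm_apply, lp.inner_single_right]
            simp [v]
          simp only [hval, Pi.zero_apply]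
          have hsum : Summable fun u : Node n => ‖v u‖ ^ (2 : ℝ) := by
            simpa using (lp.memℓp v).summable (by norm_num)
          have hinj : Function.Injective fun k => (⟨q ++ [k], hnode k⟩ : Node n) := fun k l h => by
            simpa using congr_arg Subtype.val h
          have ht := (hsum.comp_injective hinj).tendsto_atTop_zero
          rw [tendsto_zero_iff_norm_tendsto_zero]
          have := (Real.continuous_sqrt.tendsto _).comp ht
          simpa [Function.comp_def, Real.sqrt_sq (abs_nonneg _), ← sq_abs] using this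
        have hc : Continuous bq.equivFun.symm := LinearMap.continuous_of_finiteDimensional bq.equivFun.symm.toLinearMap
        simpa [Function.comp_def] using (hc.tendsto' 0 0 (map_zero _)).comp hcoord
      simpa [Function.comp_def] using (sC.continuous.tendsto' 0 0 (map_zero sC)).comp hq0
    have hsmall : Tendsto (fun k => N (sC (πC (w k)))) atTop (𝓝 0) := by
      refine squeeze_zero (fun k => apply_nonneg N _) (fun k => hNA _) ?_
      simpa using (tendsto_norm_zero.comp hto).const_mul A'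
    obtain ⟨k, hk⟩ := (hsmall.eventually_lt_const (lt_min (half_pos ha)
      (by positivity : 0 < δ / 2 * N x))).exists
    refine ⟨k, ?_⟩
    set r := sC (πC (w k))
    set y := w k - r
    have hyF : y ∈ F := by
      rw [← Submodule.Quotient.mk_eq_zero]
      show F.mkQ y = 0
      have h1 : F.mkQ r = πC (w k) := DFunLike.congr_fun hs (πC (w k))
      rw [map_sub, h1]
      exact sub_self (F.mkQ (w k))
    have hNy : a / 2 ≤ N y := by
      have h1 := he (q ++ [k]) (hnode k).1 (hnode k).2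
      have h2 : N (w k) ≤ N y + N r := by
        calc N (w k) = N (y + r) := by rw [sub_add_cancel]
          _ ≤ _ := map_add_le_add _ _ _
      have := lt_min_iff.1 hk
      linarith
    have hxA : N x ≤ A' := (hNA x).trans (mul_le_of_le_one_right hA'.le (hpv q hqn.le))
    have hy0 : 0 < N y := by linarith
    set y0 := (N y)⁻¹ • y
    have hy1 : N y0 = 1 := by
      rw [map_smul_eq_mul, Real.norm_of_nonneg (by positivity), inv_mul_cancel₀ hy0.ne']
    have hbase := hF y0 (F.smul_mem _ hyF) hy1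
    set τ := N y / N x
    have hτ : a / (2 * A') ≤ τ := by
      rw [div_le_div_iff₀ (by positivity) hpos]
      nlinarith
    have hscale := max_norm_scale x0 ((a / (2 * A')) • y0) (t := τ / (a / (2 * A')))
      ((one_le_div (by positivity)).2 hτ) N hx0 (by linarith)
    have hτy : (τ / (a / (2 * A'))) • ((a / (2 * A')) • y0) = τ • y0 :=
      (smul_smul _ _ _).trans (by rw [div_mul_cancel₀ _ (by positivity : a / (2 * A') ≠ 0)])
    rw [hτy] at hscale
    have hxy : x + y = N x • (x0 + τ • y0) := by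
      simp only [x0, y0, τ, smul_add, smul_smul]
      rw [mul_inv_cancel₀ hpos.ne', show N x * (N y / N x * (N y)⁻¹) = 1 by field_simp, one_smul, one_smul]
    have hxy' : (1 + δ) * N x ≤ N (x + y) := by
      rw [hxy, map_smul_eq_mul, Real.norm_of_nonneg hpos.le, mul_comm]
      exact mul_le_mul_of_nonneg_left (by linarith) hpos.le
    have htot : incl n (pv (q ++ [k])) = (x + y) + r := by
      rw [hpv_snoc, map_add]; show x + w k = _; simp only [y]; abel
    rw [htot]
    have h2 : N (x + y) ≤ N (x + y + r) + N r := by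
      calc N (x + y) = N ((x + y + r) + -r) := by rw [add_neg_cancel_right]
        _ ≤ _ := (map_add_le_add _ _ _).trans (by rw [map_neg_eq_map])
    have := lt_min_iff.1 hk
    linarith
  have hind : ∀ j, j ≤ m → ∃ q : List ℕ, q.length = j + 1 ∧ a * (1 + δ / 2) ^ j ≤ N (incl n (pv q)) := by
    intro j
    induction j with
    | zero =>
      intro _
      refine ⟨[0], rfl, ?_⟩
      rw [pow_zero, mul_one, show pv [0] = e [0] by simp [pv]]
      exact he [0] (by simp) (by simp [n])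
    | succ j ih =>
      intro hj
      obtain ⟨q, hq, hv⟩ := ih (by lia)
      obtain ⟨k, hk⟩ := step q (by intro h; simp [h] at hq) (by simp [n]; lia)
        (lt_of_lt_of_le (by positivity) hv)
      refine ⟨q ++ [k], by simp [hq], le_trans ?_ hk⟩
      rw [pow_succ]
      nlinarith [mul_le_mul_of_nonneg_left hv (show (0 : ℝ) ≤ 1 + δ / 2 by linarith)]
  obtain ⟨q, hq, hv⟩ := hind m le_rfl
  have := (hNA (incl n (pv q))).trans (mul_le_of_le_one_right hA'.le (hpv q (by simp [n, hq])))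
  rw [div_lt_iff₀ ha] at hm
  linarith

theorem not_finiteDimensional : ¬FiniteDimensional ℝ X := by
  intro h
  classical
  let v : (n : ℕ) → Z (n + 1) := fun n => (toH (n + 1)).symm
    (lp.single 2 (⟨[0], by simp⟩ : Node (n + 1)) (1 : ℝ))
  have hv : ∀ n, v n ≠ 0 := fun n h => by
    have h1 := congr_arg (toH (n + 1)) h
    simp only [v, LinearEquiv.apply_symm_apply, map_zero] at h1
    have := congr_arg (fun f : H (n + 1) => f ⟨[0], by simp⟩) h1
    simp at this
  have hli : LinearIndependent ℝ fun n => incl (n + 1) (v n) := by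
    rw [linearIndependent_iff']
    intro s g hg i hi
    have := congr_arg (proj (i + 1)) hg
    rw [map_sum, map_zero, Finset.sum_eq_single i] at this
    · simp [proj_apply, incl_apply, hv i] at this
      exact this
    · intro j _ hj
      have : (i + 1) ≠ j + 1 := by simp; exact Ne.symm hj
      simp [proj_apply, incl_apply, lp.coeFn_single, Pi.single_eq_of_ne this]
    · exact fun hn => absurd hi hn
  have := hli.finite
  exact not_finite ℕ

theorem reflexiveAMUCNotAUC : ReflexiveAMUCNotAUC :=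
  ⟨X, inferInstance, inferInstance, inferInstance, not_finiteDimensional, isReflexive_X,
    ⟨normSeminorm ℝ X, ⟨1, 1, one_pos, fun x => by simp⟩, norm_isAMUC⟩,
    fun ⟨_, hN, hA⟩ => not_isAUC hN hA⟩

end Vale.Agent.P069
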