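import Vale.Agent.P069.Tree

/-!
The spaces `Z n` and their test functionals.
-/

namespace Vale.Agent.P069

open Finset
open scoped RealInnerProductSpace

/-- Nodes of the forest of height `n`. -/
abbrev Node (n : ℕ) : Type := {q : List ℕ // q ≠ [] ∧ q.length ≤ n}

/-- Square summable functions on nodes. -/
abbrev H (n : ℕ) : Type := lp (fun _ : Node n => ℝ) 2

variable {n : ℕ}

/-- Extension by zero. -/
noncomputable def ext0 (f : H n) (q : List ℕ) : ℝ := if h : q ≠ [] ∧ q.length ≤ n then f ⟨q, h⟩ else 0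

/-- Sums along initial parts. -/
noncomputable def pref (f : H n) (q : List ℕ) : ℝ := ∑ j ∈ Finset.range q.length, ext0 f (q.take (j + 1))

lemma pref_nil (f : H n) : pref f [] = 0 := by simp [pref]

lemma ext0_smul (c : ℝ) (f : H n) (q : List ℕ) : ext0 (c • f) q = c * ext0 f q := by
  by_cases h : q ≠ [] ∧ q.length ≤ n <;> simp [ext0, h]

lemma pref_smul (c : ℝ) (f : H n) (q : List ℕ) : pref (c • f) q = c * pref f q := by
  simp [pref, Finset.mul_sum, ext0_smul]

lemma pref_sub_pref (f : H n) {q : List ℕ} {i : ℕ} (hi : i ≤ q.length) :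
    pref f q - pref f (q.take i) = ∑ v ∈ segNodes (q, i), ext0 f v := by
  have h1 : pref f (q.take i) = ∑ j ∈ Finset.range i, ext0 f (q.take (j + 1)) := by
    simp only [pref, List.length_take, min_eq_left hi]
    refine Finset.sum_congr rfl fun j hj => ?_
    rw [List.take_take, min_eq_left]
    have := Finset.mem_range.1 hj
    lia
  rw [h1, pref, ← Finset.sum_range_add_sum_Ico _ hi, add_sub_cancel_left, segNodes, Finset.sum_image]
  · refine Finset.sum_nbij' (fun j => j + 1) (fun j => j - 1) ?_ ?_ ?_ ?_ ?_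
    · intro j hj; simp at hj ⊢; lia
    · intro j hj; simp at hj ⊢; lia
    · intro j hj; simp
    · intro j hj; simp at hj ⊢; lia
    · intro j hj; rfl
  · intro a ha b hb hab
    simp at ha hb
    have := congr_arg List.length hab
    simp at this; lia

/-- The increments of a function on lists. -/
def incr (P : List ℕ → ℝ) (v : Node n) : ℝ := P v.1 - P v.1.dropLast

lemma sum_incr_sq_le {P : List ℕ → ℝ} {c : ℝ} (h : Jle n P c) (s : Finset (Node n)) :
    ∑ v ∈ s, incr P v ^ 2 ≤ c := by
  classical
  let e : Node n → Seg := fun v => (v.1, v.1.length - 1)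
  have hinj : Set.InjOn e s := fun a _ b _ hab => Subtype.ext (congr_arg Prod.fst hab)
  have := h (s.image e) ⟨fun a ha => ?_, fun a ha b hb hne => ?_⟩
  · rw [Finset.sum_image hinj] at this
    simpa [segVal, e, incr, List.dropLast_eq_take] using this
  · obtain ⟨v, -, rfl⟩ := Finset.mem_image.1 ha
    have := List.length_pos_iff.2 v.2.1
    exact ⟨by simp [e]; lia, v.2.2⟩
  · obtain ⟨v, -, rfl⟩ := Finset.mem_image.1 ha
    obtain ⟨w, -, rfl⟩ := Finset.mem_image.1 hb
    have key : ∀ u : Node n, segNodes (e u) = {u.1} := fun u => by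
      have := List.length_pos_iff.2 u.2.1
      simp [segNodes, e, show Finset.Ioc (u.1.length - 1) u.1.length = {u.1.length} by ext j; simp; lia]
    rw [key, key, Finset.disjoint_singleton]
    intro h'
    exact hne (congr_arg e (Subtype.ext h'))

lemma memℓp_incr {P : List ℕ → ℝ} {c : ℝ} (h : Jle n P c) : Memℓp (incr (n := n) P) 2 := by
  refine memℓp_gen' (C := c) fun s => ?_
  simpa [sq_abs] using sum_incr_sq_le h s

/-- The functional with given sums along initial parts. -/
noncomputable def ofPref {P : List ℕ → ℝ} {c : ℝ} (h : Jle n P c) : H n := ⟨incr P, memℓp_incr h⟩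

lemma ofPref_apply {P : List ℕ → ℝ} {c : ℝ} (h : Jle n P c) (v : Node n) : ofPref h v = incr P v := rfl

lemma pref_ofPref {P : List ℕ → ℝ} {c : ℝ} (h : Jle n P c) (h0 : P [] = 0) {q : List ℕ}
    (hq : q.length ≤ n) : pref (ofPref h) q = P q := by
  have : ∀ j ∈ Finset.range q.length, ext0 (ofPref h) (q.take (j + 1)) = P (q.take (j + 1)) - P (q.take j) := by
    intro j hj
    have hj' := Finset.mem_range.1 hj
    have hne : q.take (j + 1) ≠ [] := by
      intro h; have := congr_arg List.length h; simp at this; simp [this] at hj'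
    have hlen : (q.take (j + 1)).length ≤ n := by simp; lia
    rw [ext0, dif_pos ⟨hne, hlen⟩, ofPref_apply, incr]
    simp [List.dropLast_eq_take, List.take_take, show min (j + 1) q.length = j + 1 by lia]
  rw [pref, Finset.sum_congr rfl this, Finset.sum_range_sub (fun j => P (q.take j))]
  simp [h0]

lemma Jle_congr {P Q : List ℕ → ℝ} {c : ℝ} (h : Jle n P c) (he : ∀ q, q.length ≤ n → P q = Q q) :
    Jle n Q c := fun S hS => by
  refine le_trans (le_of_eq (Finset.sum_congr rfl fun a ha => ?_)) (h S hS)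
  have := hS.1 a ha
  rw [segVal, segVal, he _ this.2, he _ (by simp; lia)]

lemma Jle_pref_ofPref {P : List ℕ → ℝ} {c : ℝ} (h : Jle n P c) (h0 : P [] = 0) :
    Jle n (pref (ofPref h)) c :=
  Jle_congr h fun _ hq => (pref_ofPref h h0 hq).symm

lemma Jle_self (x : H n) : Jle n (pref x) (n * ‖x‖ ^ 2) := by
  classical
  intro S hS
  have h1 : ∀ a ∈ S, segVal (pref x) a ≤ (n : ℝ) * ∑ v ∈ segNodes a, ext0 x v ^ 2 := by
    intro a ha
    rw [segVal, pref_sub_pref x (hS.1 a ha).1.le]
    refine (sq_sum_le_card_mul_sum_sq).trans (mul_le_mul_of_nonneg_right ?_ (Finset.sum_nonneg fun _ _ => sq_nonneg _))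
    have : (segNodes a).card ≤ n := Finset.card_image_le.trans (by have := hS.1 a ha; simp; lia)
    exact_mod_cast this
  refine (Finset.sum_le_sum h1).trans ?_
  rw [← Finset.mul_sum, ← Finset.sum_biUnion fun a ha b hb hne => hS.2 a ha b hb hne]
  refine mul_le_mul_of_nonneg_left ?_ (Nat.cast_nonneg n)
  set U := S.biUnion segNodes
  have hU : ∀ v ∈ U, v ≠ [] ∧ v.length ≤ n := fun v hv => by
    obtain ⟨a, ha, hva⟩ := Finset.mem_biUnion.1 hv
    obtain ⟨j, h1, h2, rfl⟩ := mem_segNodes.1 hva
    have := hS.1 a ha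
    refine ⟨fun h => ?_, by simp; lia⟩
    rcases List.take_eq_nil_iff.1 h with h3 | h3
    · lia
    · simp [h3] at h2; lia
  have hx : ∑ v ∈ U, ext0 x v ^ 2 = ∑ v ∈ U.subtype (fun q => q ≠ [] ∧ q.length ≤ n), x v ^ 2 := by
    rw [← Finset.sum_subtype_of_mem (fun v => ext0 x v ^ 2) hU]
    exact Finset.sum_congr rfl fun v _ => by rw [ext0, dif_pos v.2]
  rw [hx]
  have := lp.sum_rpow_le_norm_rpow (p := 2) (by norm_num) x (U.subtype _)
  simpa [sq_abs] using this

lemma norm_sq_le_of_Jle {f : H n} {c : ℝ} (h : Jle n (pref f) c) : ‖f‖ ^ 2 ≤ c := by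
  have key : ∀ v : Node n, incr (pref f) v = f v := fun v => by
    have hlen := List.length_pos_iff.2 v.2.1
    rw [incr, List.dropLast_eq_take, pref_sub_pref f (Nat.sub_le _ _)]
    simp [segNodes, show Finset.Ioc (v.1.length - 1) v.1.length = {v.1.length} by ext j; simp; lia, ext0, v.2]
  have := lp.norm_le_of_forall_sum_le (p := 2) (by norm_num) (Real.sqrt_nonneg c) (f := f) fun s => by
    have hs := sum_incr_sq_le h s
    simp only [key] at hs
    simpa [sq_abs, Real.sq_sqrt h.nonneg] using hs
  exact (sq_le_sq.2 (by rwa [abs_norm, abs_of_nonneg (Real.sqrt_nonneg c)])).trans (Real.sq_sqrt h.nonneg).le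

/-- Functionals of dual norm at most one. -/
def ball (n : ℕ) : Set (H n) := {f | Jle n (pref f) 1}

lemma zero_mem_ball : (0 : H n) ∈ ball n := fun S hS => by
  simp [segVal, pref, ext0]

lemma neg_mem_ball {f : H n} (h : f ∈ ball n) : -f ∈ ball n := fun S hS => by
  have : ∀ q, pref (-f) q = - pref f q := fun q => by rw [← neg_one_smul ℝ f, pref_smul]; ring
  refine le_trans (le_of_eq (Finset.sum_congr rfl fun a _ => ?_)) (h S hS)
  simp [segVal, this]; ring

/-- The new norm on `H n`. -/
noncomputable def nrm (x : H n) : ℝ := sSup ((fun f : H n => ⟪f, x⟫) '' ball n)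

lemma bddAbove_ball (x : H n) : BddAbove ((fun f : H n => ⟪f, x⟫) '' ball n) := by
  refine ⟨‖x‖, ?_⟩
  rintro _ ⟨f, hf, rfl⟩
  have h1 : ‖f‖ ≤ 1 := by nlinarith [norm_sq_le_of_Jle hf, norm_nonneg f]
  exact (real_inner_le_norm f x).trans (mul_le_of_le_one_left (norm_nonneg x) h1)

lemma le_nrm {f : H n} (hf : f ∈ ball n) (x : H n) : ⟪f, x⟫ ≤ nrm x :=
  le_csSup (bddAbove_ball x) ⟨f, hf, rfl⟩

lemma nrm_le {x : H n} {r : ℝ} (h : ∀ f ∈ ball n, ⟪f, x⟫ ≤ r) : nrm x ≤ r :=
  csSup_le (Set.Nonempty.image _ ⟨0, zero_mem_ball⟩) (by rintro _ ⟨f, hf, rfl⟩; exact h f hf)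

lemma nrm_nonneg (x : H n) : 0 ≤ nrm x := by simpa using le_nrm zero_mem_ball x

lemma nrm_le_norm (x : H n) : nrm x ≤ ‖x‖ := nrm_le fun f hf => by
  have h1 : ‖f‖ ≤ 1 := by nlinarith [norm_sq_le_of_Jle hf, norm_nonneg f]
  exact (real_inner_le_norm f x).trans (mul_le_of_le_one_left (norm_nonneg x) h1)

lemma inner_le_of_Jle {f : H n} {c : ℝ} (h : Jle n (pref f) c) (x : H n) :
    ⟪f, x⟫ ≤ Real.sqrt c * nrm x := by
  rcases h.nonneg.lt_or_eq with hc | hc
  · have hs : 0 < Real.sqrt c := Real.sqrt_pos.2 hc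
    have hmem : (Real.sqrt c)⁻¹ • f ∈ ball n := fun S hS => by
      refine le_trans (le_of_eq (Finset.sum_congr rfl fun a _ =>
        show segVal _ a = c⁻¹ * segVal (pref f) a from ?_)) ?_
      · simp only [segVal, pref_smul, ← mul_sub, mul_pow, inv_pow, Real.sq_sqrt hc.le]
      · rw [← Finset.mul_sum, inv_mul_le_iff₀ hc, mul_one]; exact h S hS
    have := le_nrm hmem x
    rw [real_inner_smul_left, inv_mul_le_iff₀ hs] at this
    exact this
  · subst hc
    have : f = 0 := norm_le_zero_iff.1 (by nlinarith [norm_sq_le_of_Jle h, norm_nonneg f])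
    simp [this]

lemma nrm_add_le (x y : H n) : nrm (x + y) ≤ nrm x + nrm y := nrm_le fun f hf => by
  rw [inner_add_right]; exact add_le_add (le_nrm hf x) (le_nrm hf y)

lemma nrm_neg (x : H n) : nrm (-x) = nrm x := by
  have key : ∀ z : H n, nrm (-z) ≤ nrm z := fun z => nrm_le fun f hf => by
    have := le_nrm (neg_mem_ball hf) z
    simpa [inner_neg_left, inner_neg_right] using this
  exact le_antisymm (key x) (by simpa using key (-x))

lemma norm_le_mul_nrm (x : H n) : ‖x‖ ≤ Real.sqrt n * nrm x := by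
  rcases eq_or_ne x 0 with rfl | hx
  · simp only [norm_zero]; exact mul_nonneg (Real.sqrt_nonneg _) (nrm_nonneg _)
  have := inner_le_of_Jle (Jle_self x) x
  rw [real_inner_self_eq_norm_sq, Real.sqrt_mul (Nat.cast_nonneg n), Real.sqrt_sq (norm_nonneg x)] at this
  have hp : 0 < ‖x‖ := norm_pos_iff.2 hx
  nlinarith

lemma nrm_smul_le (c : ℝ) (x : H n) : nrm (c • x) ≤ |c| * nrm x := nrm_le fun f hf => by
  rw [real_inner_smul_right]
  rcases le_total 0 c with hc | hc
  · rw [abs_of_nonneg hc]; exact mul_le_mul_of_nonneg_left (le_nrm hf x) hc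
  · rw [abs_of_nonpos hc]
    have := le_nrm (neg_mem_ball hf) x
    rw [inner_neg_left] at this
    nlinarith [mul_le_mul_of_nonneg_left this (neg_nonneg.2 hc)]

/-- `H n` with the new norm. -/
def Z (n : ℕ) : Type := H n

noncomputable instance instAddCommGroupZ (n : ℕ) : AddCommGroup (Z n) := inferInstanceAs (AddCommGroup (H n))

noncomputable instance instModuleZ (n : ℕ) : Module ℝ (Z n) := inferInstanceAs (Module ℝ (H n))

/-- The underlying function. -/
noncomputable def toH (n : ℕ) : Z n ≃ₗ[ℝ] H n := LinearEquiv.refl ℝ (H n)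

/-- The new norm as a group norm. -/
noncomputable def zNorm (n : ℕ) : AddGroupNorm (Z n) where
  toFun x := nrm (toH n x)
  map_zero' := by rw [map_zero]; exact le_antisymm (by simpa using nrm_le_norm (0 : H n)) (nrm_nonneg _)
  add_le' x y := by rw [map_add]; exact nrm_add_le _ _
  neg' x := by rw [map_neg]; exact nrm_neg _
  eq_zero_of_map_eq_zero' x hx := by
    have := norm_le_mul_nrm (toH n x)
    rw [hx, mul_zero] at this
    exact (toH n).injective (by rw [norm_le_zero_iff.1 this, map_zero])

noncomputable instance instNormedAddCommGroupZ (n : ℕ) : NormedAddCommGroup (Z n) :=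
  (zNorm n).toNormedAddCommGroup

lemma norm_def (x : Z n) : ‖x‖ = nrm (toH n x) := rfl

noncomputable instance instNormedSpaceZ (n : ℕ) : NormedSpace ℝ (Z n) where
  norm_smul_le c x := by
    rw [norm_def, norm_def, map_smul, Real.norm_eq_abs]
    exact nrm_smul_le c _

/-- The isomorphism with the Hilbert space. -/
noncomputable def toHL (n : ℕ) : Z n ≃L[ℝ] H n :=
  (toH n).toContinuousLinearEquivOfBounds (Real.sqrt n) 1
    (fun x => norm_le_mul_nrm (toH n x))
    (fun x => by rw [norm_def, LinearEquiv.apply_symm_apply, one_mul]; exact nrm_le_norm x)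

lemma toHL_apply (x : Z n) : toHL n x = toH n x := rfl

noncomputable instance instCompleteSpaceZ (n : ℕ) : CompleteSpace (Z n) :=
  (completeSpace_congr (e := (toHL n).toLinearEquiv.toEquiv) (toHL n).isUniformEmbedding).2 inferInstance

lemma Z_reflexive (n : ℕ) (Φ : StrongDual ℝ (StrongDual ℝ (Z n))) :
    ∃ z : Z n, ∀ φ : StrongDual ℝ (Z n), Φ φ = φ z := by
  let Ψ : StrongDual ℝ (H n) :=
    (Φ.comp (((ContinuousLinearMap.compL ℝ (Z n) (H n) ℝ).flip (toHL n).toContinuousLinearMap))).comp
      (InnerProductSpace.toDualMap ℝ (H n)).toContinuousLinearMap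
  refine ⟨(toHL n).symm ((InnerProductSpace.toDual ℝ (H n)).symm Ψ), fun φ => ?_⟩
  set w := (InnerProductSpace.toDual ℝ (H n)).symm (φ.comp (toHL n).symm.toContinuousLinearMap)
  have hφ : φ = (InnerProductSpace.toDual ℝ (H n) w).comp (toHL n).toContinuousLinearMap := by
    ext x; simp [w]
  have h1 : Φ φ = Ψ w := by rw [hφ]; rfl
  rw [h1, hφ]
  simp only [ContinuousLinearMap.comp_apply, ContinuousLinearEquiv.coe_coe, ContinuousLinearEquiv.apply_symm_apply,
    InnerProductSpace.toDual_apply_apply]
  rw [real_inner_comm, InnerProductSpace.toDual_symm_apply]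

/-- The space. -/
abbrev X : Type := lp (fun n => Z n) 2

/-- A finite family of test functionals. -/
lemma sum_inner_le (x : X) (I : Finset ℕ) (f : ∀ n, H n) (c : ℕ → ℝ) (h : ∀ n ∈ I, Jle n (pref (f n)) (c n)) :
    ∑ n ∈ I, ⟪f n, toH n (x n)⟫ ≤ Real.sqrt (∑ n ∈ I, c n) * ‖x‖ := by
  refine (Finset.sum_le_sum fun n hn => show _ ≤ Real.sqrt (c n) * ‖x n‖ from inner_le_of_Jle (h n hn) _).trans ?_
  refine (Real.sum_mul_le_sqrt_mul_sqrt _ _ _).trans ?_
  rw [Finset.sum_congr rfl fun n hn => Real.sq_sqrt (h n hn).nonneg]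
  refine mul_le_mul_of_nonneg_left ?_ (Real.sqrt_nonneg _)
  rw [Real.sqrt_le_left (norm_nonneg x)]
  simpa using lp.sum_rpow_le_norm_rpow (p := 2) (by norm_num) x I

lemma Jle_exit {T : Set (List ℕ)} (hT : IsRootClosed T) {P : List ℕ → ℝ} {c : ℝ} (h : Jle n P c) :
    Jle n (fun q => P (exitNode T q)) c ∧ Jle n (fun q => P q - P (exitNode T q)) c := by
  classical
  constructor
  · intro S hS
    let R : Seg → Finset Seg := fun a => if a.2 < exitLen T a.1 then {(exitNode T a.1, a.2)} else ∅
    refine le_trans (Finset.sum_le_sum fun a ha => ?_) (h.refine hS R fun a ha => ?_)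
    · obtain ⟨hlen, hn⟩ := hS.1 a ha
      by_cases hc : a.2 < exitLen T a.1
      · have hp : exitNode T (a.1.take a.2) = a.1.take a.2 := by
          have hm : a.1.take a.2 ∈ T := (take_mem_iff hT hlen.le).2 hc.le
          have h1 : (a.1.take a.2).length ≤ exitLen T (a.1.take a.2) :=
            (take_mem_iff hT le_rfl).1 (by rwa [List.take_length])
          exact List.take_of_length_le h1
        simp only [R, if_pos hc, Finset.sum_singleton, segVal, hp]
        refine le_of_eq ?_
        congr 3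
        simp only [exitNode, List.take_take]; rw [min_eq_left hc.le]
      · have := exitNode_take hT hlen.le (not_lt.1 hc)
        simp [R, if_neg hc, segVal, this]
    · obtain ⟨hlen, hn⟩ := hS.1 a ha
      by_cases hc : a.2 < exitLen T a.1
      · have hle := exitLen_le (T := T) a.1
        simp only [R, if_pos hc, Finset.mem_singleton]
        refine ⟨fun b hb => ?_, fun b hb b' hb' hne => absurd (hb.trans hb'.symm) hne⟩
        subst hb
        exact ⟨by simp [exitNode]; exact ⟨hc, by lia⟩, by simp [exitNode]; lia, segNodes_sub le_rfl hle⟩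
      · simp [R, hc]
  · intro S hS
    let R : Seg → Finset Seg := fun a =>
      if exitLen T a.1 < a.1.length then {(a.1, max a.2 (exitLen T a.1))} else ∅
    refine le_trans (Finset.sum_le_sum fun a ha => ?_) (h.refine hS R fun a ha => ?_)
    · obtain ⟨hlen, hn⟩ := hS.1 a ha
      have hle := exitLen_le (T := T) a.1
      by_cases hm : a.1.take a.2 ∈ T
      · have hc := (take_mem_iff hT hlen.le).1 hm
        have hp : exitNode T (a.1.take a.2) = a.1.take a.2 :=
          List.take_of_length_le ((take_mem_iff hT le_rfl).1 (by rwa [List.take_length]))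
        by_cases hout : exitLen T a.1 < a.1.length
        · simp only [R, if_pos hout, Finset.sum_singleton, segVal, hp, sub_self, sub_zero, max_eq_right hc]
          exact le_rfl
        · have : exitNode T a.1 = a.1 := List.take_of_length_le (not_lt.1 hout)
          simp [R, if_neg hout, segVal, hp, this]
      · have hc : exitLen T a.1 ≤ a.2 := by rw [take_mem_iff hT hlen.le, not_le] at hm; exact hm.le
        simp only [R, if_pos (lt_of_le_of_lt hc hlen), Finset.sum_singleton, segVal, exitNode_take hT hlen.le hc,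
          max_eq_left hc]
        exact le_of_eq (by ring)
    · obtain ⟨hlen, hn⟩ := hS.1 a ha
      by_cases hout : exitLen T a.1 < a.1.length
      · simp only [R, if_pos hout, Finset.mem_singleton]
        refine ⟨fun b hb => ?_, fun b hb b' hb' hne => absurd (hb.trans hb'.symm) hne⟩
        subst hb
        refine ⟨max_lt hlen hout, hn, ?_⟩
        simpa using segNodes_sub (q := a.1) (le_max_left a.2 (exitLen T a.1)) (le_refl a.1.length)
      · simp [R, hout]

end Vale.Agent.P069
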