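import Mathlib

/-!
Statement of P069: a reflexive space with an asymptotically midpoint uniformly convex norm and no
equivalent asymptotically uniformly convex norm.
-/

namespace Vale.Agent.P069

variable {X : Type*} [NormedAddCommGroup X] [NormedSpace ℝ X]

/-- Closed subspaces of finite codimension. -/
def IsCof (F : Submodule ℝ X) : Prop :=
  IsClosed (F : Set X) ∧ FiniteDimensional ℝ (X ⧸ F)

/-- `N` is a norm on `X` equivalent to the given one. -/
def IsEquivNorm (N : Seminorm ℝ X) : Prop :=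
  ∃ a A : ℝ, 0 < a ∧ ∀ x, a * ‖x‖ ≤ N x ∧ N x ≤ A * ‖x‖

/-- Asymptotic uniform convexity: the modulus is positive at every `t > 0`. -/
def IsAUC (N : Seminorm ℝ X) : Prop :=
  ∀ t : ℝ, 0 < t → ∃ δ : ℝ, 0 < δ ∧ ∀ x, N x = 1 →
    ∃ F : Submodule ℝ X, IsCof F ∧ ∀ y ∈ F, N y = 1 → 1 + δ ≤ N (x + t • y)

/-- Asymptotic midpoint uniform convexity: the midpoint modulus is positive at every `t > 0`. -/
def IsAMUC (N : Seminorm ℝ X) : Prop :=
  ∀ t : ℝ, 0 < t → ∃ δ : ℝ, 0 < δ ∧ ∀ x, N x = 1 →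
    ∃ F : Submodule ℝ X, IsCof F ∧ ∀ y ∈ F, N y = 1 →
      1 + δ ≤ max (N (x + t • y)) (N (x - t • y))

/-- Reflexivity. -/
def IsReflexive (X : Type*) [NormedAddCommGroup X] [NormedSpace ℝ X] : Prop :=
  Function.Surjective (NormedSpace.inclusionInDoubleDual ℝ X)

/-- The answer to the problem: reflexive AMUC renormable does not imply AUC renormable. -/
def ReflexiveAMUCNotAUC : Prop :=
  ∃ (X : Type) (_ : NormedAddCommGroup X) (_ : NormedSpace ℝ X),
    CompleteSpace X ∧ ¬FiniteDimensional ℝ X ∧ IsReflexive X ∧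
      (∃ N : Seminorm ℝ X, IsEquivNorm N ∧ IsAMUC N) ∧
      ¬∃ N : Seminorm ℝ X, IsEquivNorm N ∧ IsAUC N

end Vale.Agent.P069
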