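import Vale.Agent.P069.Statement

/-!
Families of disjoint segments in a tree of finite sequences, and the clipping lemma.
-/

namespace Vale.Agent.P069

open Finset

/-- A segment: the bottom node and the length of the excluded initial part. -/
abbrev Seg : Type := List ℕ × ℕ

/-- The nodes of a segment. -/
def segNodes (a : Seg) : Finset (List ℕ) := (Finset.Ioc a.2 a.1.length).image fun j => a.1.take j

/-- A family of disjoint segments in the tree of height `n`. -/
def IsFamily (n : ℕ) (S : Finset Seg) : Prop :=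
  (∀ a ∈ S, a.2 < a.1.length ∧ a.1.length ≤ n) ∧
    ∀ a ∈ S, ∀ b ∈ S, a ≠ b → Disjoint (segNodes a) (segNodes b)

/-- The squared increment of `P` along a segment. -/
def segVal (P : List ℕ → ℝ) (a : Seg) : ℝ := (P a.1 - P (a.1.take a.2)) ^ 2

/-- The tree norm with prefix sums `P` is at most the square root of `c`. -/
def Jle (n : ℕ) (P : List ℕ → ℝ) (c : ℝ) : Prop :=
  ∀ S, IsFamily n S → ∑ a ∈ S, segVal P a ≤ c

variable {n : ℕ}

lemma segNodes_nonempty {a : Seg} (h : a.2 < a.1.length) : (segNodes a).Nonempty :=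
  (Finset.nonempty_Ioc.2 h).image _

lemma mem_segNodes {a : Seg} {v : List ℕ} :
    v ∈ segNodes a ↔ ∃ j, a.2 < j ∧ j ≤ a.1.length ∧ a.1.take j = v := by
  simp [segNodes, and_assoc]

lemma segNodes_sub {q : List ℕ} {i j k : ℕ} (hki : k ≤ i) (hj : j ≤ q.length) :
    segNodes (q.take j, i) ⊆ segNodes (q, k) := by
  intro v hv
  obtain ⟨l, h1, h2, rfl⟩ := mem_segNodes.1 hv
  simp only [List.length_take] at h2
  refine mem_segNodes.2 ⟨l, by lia, by lia, ?_⟩
  rw [List.take_take, min_eq_left (by lia)]

lemma segNodes_disjoint {q : List ℕ} {i j k : ℕ} (hjk : j ≤ k) :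
    Disjoint (segNodes (q.take j, i)) (segNodes (q, k)) := by
  rw [Finset.disjoint_left]
  intro v hv hv'
  obtain ⟨l, -, h2, rfl⟩ := mem_segNodes.1 hv
  obtain ⟨l', h1', h2', he⟩ := mem_segNodes.1 hv'
  have := congr_arg List.length he
  simp only [List.length_take] at this h2
  lia

/-- Refining a family gives a family. -/
lemma Jle.refine {P : List ℕ → ℝ} {c : ℝ} (h : Jle n P c) {S : Finset Seg} (hS : IsFamily n S)
    (R : Seg → Finset Seg)
    (hR : ∀ a ∈ S, (∀ b ∈ R a, b.2 < b.1.length ∧ b.1.length ≤ n ∧ segNodes b ⊆ segNodes a) ∧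
      ∀ b ∈ R a, ∀ b' ∈ R a, b ≠ b' → Disjoint (segNodes b) (segNodes b')) :
    ∑ a ∈ S, ∑ b ∈ R a, segVal P b ≤ c := by
  rw [← Finset.sum_biUnion]
  · refine h _ ⟨fun b hb => ?_, fun b hb b' hb' hne => ?_⟩
    · obtain ⟨a, ha, hba⟩ := Finset.mem_biUnion.1 hb
      exact ⟨((hR a ha).1 b hba).1, ((hR a ha).1 b hba).2.1⟩
    · obtain ⟨a, ha, hba⟩ := Finset.mem_biUnion.1 hb
      obtain ⟨a', ha', hba'⟩ := Finset.mem_biUnion.1 hb'
      by_cases haa : a = a'
      · subst haa; exact (hR a ha).2 b hba b' hba' hne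
      · exact (hS.2 a ha a' ha' haa).mono ((hR a ha).1 b hba).2.2 ((hR a' ha').1 b' hba').2.2
  · intro a ha a' ha' haa
    rw [Function.onFun, Finset.disjoint_left]
    intro b hb hb'
    have hd := (hS.2 a ha a' ha' haa).mono ((hR a ha).1 b hb).2.2 ((hR a' ha').1 b hb').2.2
    exact (segNodes_nonempty ((hR a ha).1 b hb).1).ne_empty (disjoint_self.1 hd)

lemma segVal_add_le (P Q : List ℕ → ℝ) (a : Seg) (h : (P a.1 - P (a.1.take a.2)) * (Q a.1 - Q (a.1.take a.2)) = 0) :
    segVal (fun q => P q + Q q) a = segVal P a + segVal Q a := by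
  simp only [segVal]; linear_combination 2 * h

/-- A set of nodes closed under taking prefixes. -/
def IsRootClosed (T : Set (List ℕ)) : Prop := [] ∈ T ∧ ∀ q ∈ T, ∀ j, q.take j ∈ T

/-- The length of the part of `q` inside `T`. -/
noncomputable def exitLen (T : Set (List ℕ)) (q : List ℕ) : ℕ := by
  classical exact Nat.findGreatest (fun j => q.take j ∈ T) q.length

/-- The last node of `q` inside `T`. -/
noncomputable def exitNode (T : Set (List ℕ)) (q : List ℕ) : List ℕ := q.take (exitLen T q)

variable {T : Set (List ℕ)}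

lemma exitLen_le (q : List ℕ) : exitLen T q ≤ q.length := by
  classical exact Nat.findGreatest_le _

lemma exitNode_mem (hT : IsRootClosed T) (q : List ℕ) : exitNode T q ∈ T := by
  classical
  exact Nat.findGreatest_spec (P := fun j => q.take j ∈ T) (Nat.zero_le q.length) (by simpa using hT.1)

lemma take_mem_iff (hT : IsRootClosed T) {q : List ℕ} {j : ℕ} (hj : j ≤ q.length) :
    q.take j ∈ T ↔ j ≤ exitLen T q := by
  classical
  refine ⟨fun h => Nat.le_findGreatest (P := fun j => q.take j ∈ T) hj h, fun h => ?_⟩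
  have := hT.2 _ (exitNode_mem hT q) j
  rwa [exitNode, List.take_take, min_eq_left h] at this

lemma exitNode_take (hT : IsRootClosed T) {q : List ℕ} {j : ℕ} (hj : j ≤ q.length)
    (h : exitLen T q ≤ j) : exitNode T (q.take j) = exitNode T q := by
  have hlen : exitLen T (q.take j) = exitLen T q := by
    refine le_antisymm ?_ ?_
    · have h1 : exitLen T (q.take j) ≤ j := (exitLen_le _).trans (by simp)
      rw [← take_mem_iff hT ((exitLen_le _).trans (by simp))]
      have := exitNode_mem hT (q.take j)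
      rwa [exitNode, List.take_take, min_eq_left h1] at this
    · rw [← take_mem_iff hT (by simp; lia), List.take_take, min_eq_left h]
      exact exitNode_mem hT q
  rw [exitNode, hlen, exitNode, List.take_take, min_eq_left h]

/-- The clipping function. -/
noncomputable def clip (σ : Bool) (x : ℝ) : ℝ := if σ then min x 0 else max x 0

lemma clip_zero (σ : Bool) : clip σ 0 = 0 := by cases σ <;> simp [clip]

lemma clip_add (σ : Bool) (x : ℝ) : clip σ x + clip (!σ) x = x := by
  cases σ <;> simp [clip, max_add_min, min_add_max]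

lemma abs_clip_sub_le (σ : Bool) (x y : ℝ) : |clip σ x - clip σ y| ≤ |x - y| := by
  cases σ <;> simp [clip]
  · exact abs_max_sub_max_le_abs x y 0
  · refine (abs_min_sub_min_le_max x 0 y 0).trans ?_
    simp

lemma abs_clip_le (σ : Bool) (x : ℝ) : |clip σ x| ≤ |x| := by
  simpa [clip_zero] using abs_clip_sub_le σ x 0

/-- The threshold at a junction. -/
noncomputable def gam (T : Set (List ℕ)) (n : ℕ) (G : List ℕ → ℝ) (u : List ℕ) : ℝ :=
  ⨆ q : {q : List ℕ // q.length ≤ n ∧ exitNode T q = u}, |G q|

lemma abs_le_sqrt_of_Jle {G : List ℕ → ℝ} {c : ℝ} (h : Jle n G c) (hG : G [] = 0) {q : List ℕ}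
    (hq : q.length ≤ n) : |G q| ≤ Real.sqrt c := by
  rcases Nat.eq_zero_or_pos q.length with h0 | h0
  · rw [List.length_eq_zero_iff.1 h0, hG]; simp
  · refine Real.abs_le_sqrt ?_
    have := h {(q, 0)} ⟨fun a ha => by simp at ha; subst ha; exact ⟨h0, hq⟩,
      fun a ha b hb hne => by simp at ha hb; exact absurd (ha.trans hb.symm) hne⟩
    simpa [segVal, hG] using this

lemma Jle.nonneg {G : List ℕ → ℝ} {c : ℝ} (h : Jle n G c) : 0 ≤ c := by
  simpa using h ∅ ⟨by simp, by simp⟩

lemma abs_le_gam (hT : IsRootClosed T) {G : List ℕ → ℝ} {c : ℝ} (h : Jle n G c) (hG : G [] = 0)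
    {q : List ℕ} (hq : q.length ≤ n) : |G q| ≤ gam T n G (exitNode T q) := by
  refine le_ciSup (f := fun p : {p : List ℕ // p.length ≤ n ∧ exitNode T p = exitNode T q} => |G p|)
    ⟨Real.sqrt c, ?_⟩ ⟨q, hq, rfl⟩
  rintro _ ⟨p, rfl⟩
  exact abs_le_sqrt_of_Jle h hG p.2.1

lemma gam_nonneg (T : Set (List ℕ)) (n : ℕ) (G : List ℕ → ℝ) (u : List ℕ) : 0 ≤ gam T n G u :=
  Real.iSup_nonneg fun _ => abs_nonneg _

lemma sum_gam_le (hT : IsRootClosed T) {G : List ℕ → ℝ} {c : ℝ} (h : Jle n G c) (hG : ∀ q ∈ T, G q = 0)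
    (U : Finset (List ℕ)) : ∑ u ∈ U, gam T n G u ^ 2 ≤ c := by
  classical
  refine le_of_forall_pos_le_add fun ε hε => ?_
  have hex : ∀ u, ∃ q : List ℕ, q.length ≤ n ∧ (exitNode T q = u ∨ q = []) ∧
      gam T n G u ^ 2 ≤ G q ^ 2 + ε / (U.card + 1) := by
    intro u
    have hd : (0 : ℝ) < ε / (U.card + 1) := by positivity
    by_cases hne : Nonempty {q : List ℕ // q.length ≤ n ∧ exitNode T q = u}
    · by_contra hc
      push Not at hc
      have hpos : ∀ q : {q : List ℕ // q.length ≤ n ∧ exitNode T q = u},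
          |G q| ≤ Real.sqrt (gam T n G u ^ 2 - ε / (U.card + 1)) := fun q =>
        Real.abs_le_sqrt (by linarith [hc q q.2.1 (Or.inl q.2.2)])
      have := hne
      obtain ⟨q0⟩ := hne
      have h1 : gam T n G u ≤ Real.sqrt (gam T n G u ^ 2 - ε / (U.card + 1)) :=
        ciSup_le fun q => hpos q
      have h2 : 0 ≤ gam T n G u ^ 2 - ε / (U.card + 1) := by
        nlinarith [hc q0 q0.2.1 (Or.inl q0.2.2), sq_nonneg (G q0)]
      have := Real.sq_sqrt h2
      nlinarith [gam_nonneg T n G u]
    · refine ⟨[], Nat.zero_le _, Or.inr rfl, ?_⟩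
      rw [not_nonempty_iff] at hne
      rw [gam, Real.iSup_of_isEmpty]
      simp; nlinarith [sq_nonneg (G [])]
  choose q hqn hqu hqv using hex
  set U' := U.filter fun u => exitLen T (q u) < (q u).length
  have hval : ∀ u ∈ U, u ∉ U' → G (q u) = 0 := by
    intro u hu hu'
    simp only [U', Finset.mem_filter, hu, true_and, not_lt] at hu'
    refine hG _ ?_
    have := exitNode_mem hT (q u)
    rwa [exitNode, List.take_of_length_le hu'] at this
  have hexit : ∀ u ∈ U', exitNode T (q u) = u := by
    intro u hu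
    rcases hqu u with h1 | h1
    · exact h1
    · simp [U', h1] at hu
  let e : List ℕ → Seg := fun u => (q u, exitLen T (q u))
  have hinj : Set.InjOn e U' := fun u hu v hv huv => by
    have h1 : q u = q v := congr_arg Prod.fst huv
    rw [← hexit u hu, h1, hexit v hv]
  have hfam : IsFamily n (U'.image e) := by
    refine ⟨fun a ha => ?_, fun a ha b hb hne => ?_⟩
    · obtain ⟨u, hu, rfl⟩ := Finset.mem_image.1 ha
      exact ⟨(Finset.mem_filter.1 hu).2, hqn u⟩
    · obtain ⟨u, hu, rfl⟩ := Finset.mem_image.1 ha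
      obtain ⟨v, hv, rfl⟩ := Finset.mem_image.1 hb
      rw [Finset.disjoint_left]
      intro w hw hw'
      obtain ⟨j, hj1, hj2, hj⟩ := mem_segNodes.1 hw
      obtain ⟨k, hk1, hk2, hk⟩ := mem_segNodes.1 hw'
      apply hne
      simp only [e] at hj1 hj2 hj hk1 hk2 hk
      have h1 := exitNode_take hT hj2 hj1.le
      have h2 := exitNode_take hT hk2 hk1.le
      rw [hj, hexit u hu] at h1
      rw [hk, hexit v hv] at h2
      rw [h1.symm.trans h2]
  have hS := h _ hfam
  rw [Finset.sum_image hinj] at hS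
  have hzero : ∀ u, G ((q u).take (exitLen T (q u))) = 0 := fun u => hG _ (exitNode_mem hT (q u))
  simp only [segVal, e, hzero, sub_zero] at hS
  have hU : ∑ u ∈ U', G (q u) ^ 2 = ∑ u ∈ U, G (q u) ^ 2 :=
    Finset.sum_subset (Finset.filter_subset _ _) fun u hu hu' => by rw [hval u hu hu']; ring
  calc ∑ u ∈ U, gam T n G u ^ 2 ≤ ∑ u ∈ U, (G (q u) ^ 2 + ε / (U.card + 1)) :=
        Finset.sum_le_sum fun u _ => hqv u
    _ ≤ c + ε := by
        rw [Finset.sum_add_distrib, Finset.sum_const, nsmul_eq_mul]
        refine add_le_add (hU ▸ hS) ?_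
        rw [mul_div_assoc', div_le_iff₀ (by positivity)]
        nlinarith

lemma exists_sign {F : List ℕ → ℝ} (u : List ℕ) (θ : ℝ) :
    ∃ σ : Bool, ∀ i < u.length,
      |F u - F (u.take i)| ≤ θ ∨ (σ = decide (0 < F u - F (u.take i))) ∨
      ∃ w, i < w ∧ w < u.length ∧ θ < |F u - F (u.take w)| ∧
        (F u - F (u.take w)) * (F u - F (u.take i)) ≤ 0 := by
  classical
  by_cases h : ∃ w < u.length, θ < |F u - F (u.take w)|
  · obtain ⟨w0, hw0, hw0'⟩ := h
    set P := fun w => w < u.length ∧ θ < |F u - F (u.take w)|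
    set w := Nat.findGreatest P u.length
    have hw : P w := Nat.findGreatest_spec (P := P) hw0.le ⟨hw0, hw0'⟩
    refine ⟨decide (0 < F u - F (u.take w)), fun i hi => ?_⟩
    by_cases hs : |F u - F (u.take i)| ≤ θ
    · exact Or.inl hs
    by_cases he : (0 < F u - F (u.take w)) ↔ (0 < F u - F (u.take i))
    · exact Or.inr (Or.inl (by simpa using he))
    refine Or.inr (Or.inr ⟨w, lt_of_le_of_ne (Nat.le_findGreatest hi.le ⟨hi, not_le.1 hs⟩) ?_, hw.1, hw.2, ?_⟩)
    · rintro rfl; exact he Iff.rfl
    · rcases lt_or_ge 0 (F u - F (u.take w)) with h1 | h1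
      · have h2 : F u - F (u.take i) ≤ 0 := not_lt.1 fun h => he ⟨fun _ => h, fun _ => h1⟩
        exact mul_nonpos_of_nonneg_of_nonpos h1.le h2
      · have h2 : 0 < F u - F (u.take i) := by
          by_contra h
          exact he ⟨fun h' => absurd h' (not_lt.2 h1), fun h' => absurd h' h⟩
        exact mul_nonpos_of_nonpos_of_nonneg h1 h2.le
  · push Not at h
    exact ⟨true, fun i hi => Or.inl (h i hi)⟩

/-- The clipping lemma. -/
lemma exists_clip (hT : IsRootClosed T) {F G : List ℕ → ℝ} {A B : ℝ} (hF : Jle n F A) (hG : Jle n G B)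
    (hFs : ∀ q, q.length ≤ n → F q = F (exitNode T q)) (hG0 : ∀ q ∈ T, G q = 0) {b : ℝ} (hb : 0 ≤ b) :
    ∃ σ : List ℕ → Bool, ∀ τ : Bool,
      Jle n (fun q => clip (xor τ (σ (exitNode T q))) (G q)) B ∧
      Jle n (fun q => F q + (bif τ then -b else b) * clip (xor τ (σ (exitNode T q))) (G q)) (A + 3 * b ^ 2 * B) := by
  classical
  choose σ hσ using fun u => exists_sign (F := F) u (b * gam T n G u)
  refine ⟨σ, fun τ => ?_⟩
  set H : List ℕ → ℝ := fun q => clip (xor τ (σ (exitNode T q))) (G q)
  have hH0 : ∀ q ∈ T, H q = 0 := fun q hq => by simp [H, hG0 q hq, clip_zero]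
  have hmono : ∀ (a : Seg), a.1.length ≤ n → a.2 < a.1.length →
      |H a.1 - H (a.1.take a.2)| ≤ |G a.1 - G (a.1.take a.2)| := by
    intro a _ ha
    by_cases h : a.1.take a.2 ∈ T
    · rw [hH0 _ h, hG0 _ h, sub_zero, sub_zero]; exact abs_clip_le _ _
    · have h' : exitLen T a.1 ≤ a.2 := by
        rw [take_mem_iff hT ha.le, not_le] at h; exact h.le
      simp only [H, exitNode_take hT ha.le h']
      exact abs_clip_sub_le _ _ _
  have hHB : Jle n H B := fun S hS => le_trans (Finset.sum_le_sum fun a ha => by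
    simp only [segVal]; exact sq_le_sq.2 (hmono a (hS.1 a ha).2 (hS.1 a ha).1)) (hG S hS)
  refine ⟨hHB, fun S hS => ?_⟩
  let e : Seg → ℕ := fun a => exitLen T a.1
  let cross : Seg → Prop := fun a => a.2 < e a
  let θ : Seg → ℝ := fun a => b * gam T n G (exitNode T a.1)
  let split : Seg → Prop := fun a => ∃ w, a.2 < w ∧ w < e a ∧
    θ a < |F (exitNode T a.1) - F (a.1.take w)| ∧
      (F (exitNode T a.1) - F (a.1.take w)) * (F (exitNode T a.1) - F (a.1.take a.2)) ≤ 0 ∧
      θ a < |F (exitNode T a.1) - F (a.1.take a.2)|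
  let wof : Seg → ℕ := fun a => if h : split a then h.choose else 0
  let R : Seg → Finset Seg := fun a =>
    if cross a then (if split a then {(a.1.take (wof a), a.2), (exitNode T a.1, wof a)}
      else {(exitNode T a.1, a.2)}) else ∅
  let small : Seg → ℝ := fun a => if cross a then gam T n G (exitNode T a.1) ^ 2 else 0
  have hkey : ∀ a ∈ S, segVal (fun q => F q + (bif τ then -b else b) * H q) a
      ≤ (∑ c ∈ R a, segVal F c) + b ^ 2 * segVal H a + 2 * b ^ 2 * small a := by
    intro a ha
    obtain ⟨hlen, hn⟩ := hS.1 a ha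
    have hsq : ((bif τ then -b else b) : ℝ) ^ 2 = b ^ 2 := by cases τ <;> simp
    by_cases hc : cross a
    swap
    · have he : e a ≤ a.2 := not_lt.1 hc
      have h1 : exitNode T (a.1.take a.2) = exitNode T a.1 := exitNode_take hT hlen.le he
      have hFeq : F a.1 = F (a.1.take a.2) := by
        rw [hFs _ hn, hFs (a.1.take a.2) (by simp; lia), h1]
      simp only [R, small, if_neg hc, Finset.sum_empty, segVal, hFeq]
      refine le_of_eq ?_
      linear_combination (H a.1 - H (a.1.take a.2)) ^ 2 * hsq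
    have hpT : a.1.take a.2 ∈ T := (take_mem_iff hT hlen.le).2 hc.le
    set u := exitNode T a.1
    have hFu : F a.1 = F u := hFs _ hn
    have hHp : H (a.1.take a.2) = 0 := hH0 _ hpT
    set s := F u - F (a.1.take a.2)
    set z := (bif τ then -b else b) * H a.1
    have hz : |z| ≤ θ a := by
      simp only [z, θ, abs_mul, show |(bif τ then -b else b : ℝ)| = b by cases τ <;> simp [abs_of_nonneg hb]]
      exact mul_le_mul_of_nonneg_left ((abs_clip_le _ _).trans (abs_le_gam hT hG (hG0 _ hT.1) hn)) hb
    have hval : segVal (fun q => F q + (bif τ then -b else b) * H q) a = (s + z) ^ 2 := by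
      simp only [segVal, hHp, hFu, s, z]; ring
    have hHval : b ^ 2 * segVal H a = z ^ 2 := by
      simp only [segVal, hHp, sub_zero, z, mul_pow, hsq]
    rw [hval, hHval]
    simp only [small, if_pos hc, R]
    have hu : u.length = e a := by simp [u, exitNode, e, exitLen_le]
    have htake : ∀ w, w ≤ e a → u.take w = a.1.take w := fun w hw => by
      simp only [u, exitNode, List.take_take]; rw [min_eq_left hw]
    by_cases hsp : split a
    · obtain ⟨hw1, hw2, hw3, hw4, hw5⟩ := hsp.choose_spec
      have hwof : wof a = hsp.choose := by simp [wof, hsp]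
      rw [if_pos hsp, hwof, Finset.sum_pair]
      swap
      · intro hpe
        have := congr_arg Prod.snd hpe
        simp at this; lia
      set w := hsp.choose
      set S0 := F u - F (a.1.take w)
      have e1 : segVal F (a.1.take w, a.2) = (s - S0) ^ 2 := by
        simp only [segVal, List.take_take, min_eq_left hw1.le, s, S0]; ring
      have e2 : segVal F (u, w) = S0 ^ 2 := by simp only [segVal, htake w hw2.le, S0]
      rw [e1, e2]
      have h1 : -(S0 * s) = |S0| * |s| := by rw [← abs_mul, abs_of_nonpos hw4]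
      have h2 : s * z ≤ |s| * θ a := by
        refine (le_abs_self _).trans ?_
        rw [abs_mul]; exact mul_le_mul_of_nonneg_left hz (abs_nonneg _)
      nlinarith [mul_le_mul_of_nonneg_right hw3.le (abs_nonneg s), sq_nonneg (gam T n G u), sq_nonneg S0]
    · rw [if_neg hsp, Finset.sum_singleton]
      have e1 : segVal F (u, a.2) = s ^ 2 := by simp only [segVal, htake _ hc.le, s]
      rw [e1]
      have hi : a.2 < u.length := hu.symm ▸ hc
      have hθ : θ a ^ 2 = b ^ 2 * gam T n G u ^ 2 := by simp [θ, u, mul_pow]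
      rcases hσ u a.2 hi with h | h | ⟨w, hw1, hw2, hw3, hw4⟩
      · rw [htake _ hc.le] at h
        have h2 : s * z ≤ θ a * θ a := by
          refine (le_abs_self _).trans ?_
          rw [abs_mul]; exact mul_le_mul h hz (abs_nonneg _) ((abs_nonneg _).trans hz)
        nlinarith
      · rw [htake _ hc.le] at h
        have hneg : s * z ≤ 0 := by
          have hsn : (σ u = true → 0 ≤ s) ∧ (σ u = false → s ≤ 0) :=
            ⟨fun h' => le_of_lt (by simpa [h', s] using h.symm), fun h' => by
              have := h.symm; simp [h'] at this; linarith⟩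
          simp only [z, H]
          rcases hb' : σ u with _ | _ <;> cases τ <;> simp [clip, show σ (exitNode T a.1) = σ u from rfl, hb']
          · nlinarith [mul_nonneg hb (le_max_right (G a.1) 0), hsn.2 hb']
          · nlinarith [mul_nonpos_of_nonneg_of_nonpos hb (min_le_right (G a.1) 0), hsn.2 hb']
          · nlinarith [mul_nonpos_of_nonneg_of_nonpos hb (min_le_right (G a.1) 0), hsn.1 hb']
          · nlinarith [mul_nonneg hb (le_max_right (G a.1) 0), hsn.1 hb']
        nlinarith [sq_nonneg (gam T n G u)]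
      · rw [htake _ hc.le] at hw4
        rw [htake _ (by lia)] at hw3 hw4
        have hs : |s| ≤ θ a := by
          by_contra hcon
          exact hsp ⟨w, hw1, by lia, hw3, hw4, not_le.1 hcon⟩
        have h2 : s * z ≤ θ a * θ a := by
          refine (le_abs_self _).trans ?_
          rw [abs_mul]; exact mul_le_mul hs hz (abs_nonneg _) ((abs_nonneg _).trans hz)
        nlinarith
  refine (Finset.sum_le_sum hkey).trans ?_
  rw [Finset.sum_add_distrib, Finset.sum_add_distrib, ← Finset.mul_sum, ← Finset.mul_sum]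
  have hRs := hF.refine hS R (fun a ha => ?_)
  swap
  · obtain ⟨hlen, hn⟩ := hS.1 a ha
    by_cases hc : cross a
    swap
    · simp [R, hc]
    have hle : e a ≤ a.1.length := exitLen_le _
    by_cases hsp : split a
    · obtain ⟨hw1, hw2, -⟩ := hsp.choose_spec
      have hwof : wof a = hsp.choose := by simp [wof, hsp]
      simp only [R, if_pos hc, if_pos hsp, hwof]
      set w := hsp.choose
      have h1 : segNodes (a.1.take w, a.2) ⊆ segNodes a := segNodes_sub le_rfl (by lia)
      have h2 : segNodes (exitNode T a.1, w) ⊆ segNodes a := segNodes_sub hw1.le hle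
      have hdis : Disjoint (segNodes (a.1.take w, a.2)) (segNodes (exitNode T a.1, w)) := by
        have := segNodes_disjoint (q := exitNode T a.1) (i := a.2) (le_refl w)
        rwa [exitNode, List.take_take, min_eq_left hw2.le, ← exitNode] at this
      refine ⟨fun c hc' => ?_, fun c hc1 c' hc2 hne => ?_⟩
      · simp only [Finset.mem_insert, Finset.mem_singleton] at hc'
        rcases hc' with rfl | rfl
        · exact ⟨by simp; lia, by simp; lia, h1⟩
        · exact ⟨by simp [exitNode]; lia, by simp [exitNode]; lia, h2⟩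
      · simp only [Finset.mem_insert, Finset.mem_singleton] at hc1 hc2
        rcases hc1 with rfl | rfl <;> rcases hc2 with rfl | rfl
        · exact absurd rfl hne
        · exact hdis
        · exact hdis.symm
        · exact absurd rfl hne
    · simp only [R, if_pos hc, if_neg hsp]
      refine ⟨fun c hc' => ?_, fun c hc1 c' hc2 hne => ?_⟩
      · simp only [Finset.mem_singleton] at hc'
        subst hc'
        exact ⟨by simp [exitNode]; exact ⟨hc, by lia⟩, by simp [exitNode]; lia, segNodes_sub le_rfl hle⟩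
      · simp only [Finset.mem_singleton] at hc1 hc2
        exact absurd (hc1.trans hc2.symm) hne
  have hsmall : ∑ a ∈ S, small a ≤ B := by
    simp only [small]
    rw [← Finset.sum_filter, ← Finset.sum_image (f := fun u => gam T n G u ^ 2) (g := fun a : Seg => exitNode T a.1)]
    · exact sum_gam_le hT hG hG0 _
    · intro a ha a' ha' hu
      simp only [Finset.coe_filter, Set.mem_ofPred_eq] at ha ha'
      by_contra hne
      have m : ∀ c ∈ S, cross c → exitNode T c.1 ∈ segNodes c := fun c _ hc =>
        mem_segNodes.2 ⟨exitLen T c.1, hc, exitLen_le _, rfl⟩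
      exact Finset.disjoint_left.1 (hS.2 a ha.1 a' ha'.1 hne) (m a ha.1 ha.2)
        (by simp only at hu; rw [hu]; exact m a' ha'.1 ha'.2)
  have := hHB S hS
  nlinarith [sq_nonneg b]

end Vale.Agent.P069
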